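import Vale.Agent.P218KE.Amb
import Vale.Agent.P218ND.Brg3
import Vale.Agent.P218CO.Sys
import Vale.Agent.P218MP.Dual

/-! The multipliers: definitions and elementary properties. -/

open MeasureTheory Set Filter Topology Metric
open scoped RealInnerProductSpace ContDiff

namespace Vale.Agent.P218KE

set_option linter.unusedSectionVars false

open Vale.Agent.P218GA (E3 Model pol)
open Vale.Agent.P218ND Vale.Agent.P218VA Vale.Agent.P218CO Vale.Agent.P272.K.LIN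

variable {S : Set E3} {w : E3 → ℝ} {δ C : ℝ} {ι κ M : Type} [TopologicalSpace M]
  [ChartedSpace E2 M] (m : Model S w δ C ι κ M)

/-- the pull back of an ambient function, extended by zero to the punctures -/
noncomputable def pull (f : E3 → ℝ) : M → ℝ := m.reg.indicator fun x => f (m.F x)

variable {x : M} {a : ℝ} {f : E3 → ℝ} {u : M → ℝ}

lemma pull_reg (f : E3 → ℝ) (hx : x ∈ m.reg) : pull m f x = f (m.F x) := indicator_of_mem hx _

lemma pull_not (f : E3 → ℝ) (hx : x ∉ m.reg) : pull m f x = 0 := indicator_of_notMem hx _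

lemma Y_reg (j : ι ⊕ κ) {p : ℝ × ℝ} (hp : m.w0 < p.1) : (ends m).Y j p ∈ m.reg :=
  m.pol_mem_reg j hp

lemma norm_F_Y (j : ι ⊕ κ) {p : ℝ × ℝ} (hp : m.w0 < p.1) :
    ‖m.F ((ends m).Y j p)‖ ^ 2 = 4 * p.1 := m.norm_F_pol j hp

lemma reg_cases (hx : x ∈ m.reg) : (∀ j, x ∉ (m.φ j).source) ∨
    ∃ j, ∃ p : ℝ × ℝ, m.w0 < p.1 ∧ x = (ends m).Y j p := by
  rcases (ends m).cases x with h | ⟨j, h⟩ | ⟨j, p, h1, -, h2⟩
  · exact .inl h
  · exact absurd h (hx j)
  · exact .inr ⟨j, p, h1, h2⟩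

lemma below_iff (ha : m.w0 < a) (hx : x ∈ m.reg) : x ∈ (ends m).below a ↔ ‖m.F x‖ ^ 2 < 4 * a := by
  rcases reg_cases m hx with h | ⟨j, p, h1, rfl⟩
  · exact iff_of_true (Ends.below_of_core h a) (by linarith [m.core x h])
  · rw [Ends.Y_below h1, norm_F_Y m j h1]
    constructor <;> intro h <;> linarith

lemma exists_Y (hx : x ∈ m.reg) (h : 4 * m.w0 < ‖m.F x‖ ^ 2) :
    ∃ j, ∃ p : ℝ × ℝ, m.w0 < p.1 ∧ x = (ends m).Y j p :=
  (reg_cases m hx).resolve_left fun h' => absurd (m.core x h') (not_le.2 h)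

variable [Finite ι] [Finite κ] [T2Space M]

lemma ckAt_comp {n : WithTop ℕ∞} (hn : n ≤ ∞) (hx : x ∈ m.reg) (hf : ContDiffAt ℝ n f (m.F x)) :
    CkAt n (fun z => f (m.F z)) x := fun e he hxe =>
  ContDiffAt.comp (g := f) (f := cX e m.F) _ (by rwa [cX_self _ hxe])
    ((m.ckAt_F hx e he hxe).of_le hn)

lemma src_pull (ha : m.w0 < a) (hf : ContDiff ℝ 1 f) (h0 : ∀ z, 4 * a ≤ ‖z‖ ^ 2 → f z = 0) :
    (ends m).Src a (pull m f) := by
  have h1 : ∀ x, x ∉ (ends m).below a → pull m f x = 0 := fun x hx => by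
    by_cases hr : x ∈ m.reg
    · rw [pull_reg m f hr, h0 _ (not_lt.1 fun h => hx ((below_iff m ha hr).2 h))]
    · exact pull_not m f hr
  refine ⟨fun e he x => ?_, h1⟩
  change x ∈ e.source → ContDiffAt ℝ 1 (cX e (pull m f)) (e x)
  revert e
  change CkAt 1 (pull m f) x
  by_cases hr : x ∈ m.reg
  · exact (ckAt_comp m one_le_inf hr hf.contDiffAt).congr
      ((ev_reg m hr).mono fun z hz => pull_reg m f hz)
  · obtain ⟨j, hj⟩ : ∃ j, x = (m.φ j).symm 0 := by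
      by_contra h
      exact hr fun j hj => h ⟨j, hj⟩
    refine (CkFn.ckAt (ckFn_const (0 : ℝ)) x).congr ?_
    have h2 : x ∈ (m.φ j).source := hj ▸ (m.φ j).map_target (m.zero_mem j)
    have h3 : m.φ j x ∈ ball (0 : E2) (Real.exp (-a)) := by
      rw [hj, (m.φ j).right_inv (m.zero_mem j)]
      exact mem_ball_self (Real.exp_pos _)
    filter_upwards [((m.φ j).isOpen_inter_preimage isOpen_ball).mem_nhds ⟨h2, h3⟩] with z hz
    exact h1 z fun h => absurd (h j hz.1) (not_lt.2 (mem_ball_zero_iff.1 hz.2).le)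

variable [RSm E2 M] [CompactSpace M] [MeasurableSpace M] [BorelSpace M]

lemma exists_bound_below (hu : ContinuousOn u m.reg) (a : ℝ) :
    ∃ B, ∀ x ∈ (ends m).below a, |u x| ≤ B := by
  have h1 : IsClosed {x | ∀ j, x ∈ (m.φ j).source → Real.exp (-a) ≤ ‖m.φ j x‖} := by
    rw [← isOpen_compl_iff]
    convert isOpen_iUnion fun j =>
      (m.φ j).isOpen_inter_preimage (isOpen_ball (x := (0 : E2)) (ε := Real.exp (-a)))
    ext x
    simp only [mem_compl_iff, mem_ofPred_eq, not_forall, not_le, mem_iUnion, mem_inter_iff,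
      mem_preimage, mem_ball_zero_iff, exists_prop]
  obtain ⟨B, hB⟩ := h1.isCompact.exists_bound_of_continuousOn (hu.mono fun x hx =>
    Ends.below_reg (𝓔 := ends m) (a := a + 1) fun j hj =>
      (Real.exp_lt_exp.2 (by linarith)).trans_le (hx j hj))
  exact ⟨B, fun x hx => hB x fun j hj => (hx j hj).le⟩

/-- continuous functions of polynomial growth are square integrable -/
theorem memLp_of_gr {q : ℝ} (hu : ContinuousOn u m.reg) (h : (ends m).Gr q u) :
    MemLp u 2 m.mu0 := by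
  obtain ⟨K, W, h⟩ := h
  have ha : m.w0 < max W (m.w0 + 1) := lt_max_of_lt_right (by linarith)
  obtain ⟨B, hB⟩ := exists_bound_below m hu (max W (m.w0 + 1))
  refine memLp_of_growth m hu (K := max |K| |B|) (q := 2 * ⌈q⌉₊) fun x hx => ?_
  have h1 : 1 ≤ 1 + ‖m.F x‖ := by linarith [norm_nonneg (m.F x)]
  by_cases hb : x ∈ (ends m).below (max W (m.w0 + 1))
  · exact ((hB x hb).trans ((le_abs_self B).trans (le_max_right _ _))).trans
      (le_mul_of_one_le_right (by positivity) (one_le_pow₀ h1))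
  · have h2 := not_lt.1 fun h => hb ((below_iff m ha hx).2 h)
    obtain ⟨j, p, hp, rfl⟩ := exists_Y m hx (by linarith)
    have h3 := norm_F_Y m j hp
    have h4 : 1 ≤ p.1 := m.one_le.trans hp.le
    refine (h j p (by linarith [le_max_left W (m.w0 + 1)])).trans
      (mul_le_mul ((le_abs_self K).trans (le_max_left _ _)) ?_ (by positivity) (by positivity))
    rw [pow_mul]
    refine (Real.rpow_le_rpow_of_exponent_le h4 (Nat.le_ceil q)).trans ?_
    rw [Real.rpow_natCast]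
    exact pow_le_pow_left₀ (by linarith) (by nlinarith [norm_nonneg (m.F ((ends m).Y j p))]) _

/-- a continuous function which vanishes almost everywhere vanishes -/
lemma eq_zero_of_ae (hu : ContinuousOn u m.reg) (h : ∀ᵐ x ∂m.mu0, u x = 0) (hx : x ∈ m.reg) :
    u x = 0 := by
  by_contra h0
  refine P218MP.isArea_pos m.isArea (V := m.reg ∩ u ⁻¹' {0}ᶜ)
    (hu.isOpen_inter_preimage m.isOpen_reg isOpen_compl_singleton) inter_subset_left
    ⟨x, hx, h0⟩ (measure_mono_null (fun z hz => hz.2) h)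

lemma ae_mu0 {g : E3 → ℝ} (hg : MemLp g 2 (ga 2 w)) (h : ∀ᵐ z ∂(ga 2 w), g z = 0) :
    ∀ᵐ x ∂m.mu0, g (m.F x) = 0 := by
  have h1 : ∫ z, g z ^ 2 ∂(ga 2 w) = 0 := integral_eq_zero_of_ae (h.mono fun z hz => by simp [hz])
  rw [integral_ga_eq m, mul_eq_zero_iff_left (P218GA.cH_pos' 2).ne',
    integral_eq_zero_iff_of_nonneg (fun x => sq_nonneg _)
      ((memLp_mu0 m g).2 hg).integrable_sq] at h1
  exact h1.mono fun x hx => pow_eq_zero_iff two_ne_zero |>.1 hx

/-- `u` solves the equation with the multipliers `l` -/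
def MSol {Λ : Type} [Fintype Λ] (e : Λ → E3 → ℝ) (u : M → ℝ) (l : Λ → ℝ) : Prop :=
  ∀ x ∈ m.reg, CkAt 2 u x ∧ LM m u x = ∑ k, l k * pull m (e k) x

/-- The functions `e` kill the kernel and the cokernel of the stability operator. -/
structure Mult [Fintype ι] (s : ℝ) {n : ℕ} (e : Fin n ⊕ ι → E3 → ℝ) : Prop where
  lev : m.w0 < s
  cd : ∀ k, ContDiff ℝ 1 (e k)
  supp : ∀ k x, 4 * s ≤ ‖x‖ ^ 2 → e k x = 0
  A : ∀ u l, MSol m e u l → MemLp u 2 m.mu0 →
    (∀ i, ∫ x, pull m (e (.inl i)) x * u x ∂m.mu0 = 0) →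
    (∀ i ε, 0 < ε → ∀ W, ∃ p : ℝ × ℝ, W ≤ p.1 ∧ |u ((ends m).Y (.inl i) p)| ≤ ε * p.1) →
    l = 0 ∧ ∀ x ∈ m.reg, u x = 0
  B : ∀ u l, MSol m e u l → MemLp u 2 m.mu0 → (∀ k, ∫ x, pull m (e k) x * u x ∂m.mu0 = 0) →
    l = 0 ∧ ∀ x ∈ m.reg, u x = 0

variable {m}

lemma MSol.cont {Λ : Type} [Fintype Λ] {e : Λ → E3 → ℝ} {l : Λ → ℝ} (h : MSol m e u l) :
    ContinuousOn u m.reg := fun x hx => (h x hx).1.continuousAt.continuousWithinAt

namespace Mult

variable [Fintype ι] {s : ℝ} {n : ℕ} {e : Fin n ⊕ ι → E3 → ℝ} (h : Mult m s e)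
include h

lemma mono (ha : s ≤ a) : Mult m a e :=
  ⟨h.lev.trans_le ha, h.cd, fun k x hx => h.supp k x (by linarith), h.A, h.B⟩

lemma src (k : Fin n ⊕ ι) : (ends m).Src s (pull m (e k)) := src_pull m h.lev (h.cd k) (h.supp k)

theorem A' {l : Fin n ⊕ ι → ℝ} {q : ℝ} (hq : q < 1) (hu : MSol m e u l) (hg : (ends m).Gr q u)
    (h0 : ∀ i, ∫ x, pull m (e (.inl i)) x * u x ∂m.mu0 = 0) : l = 0 ∧ ∀ x ∈ m.reg, u x = 0 := by
  refine h.A u l hu (memLp_of_gr m hu.cont hg) h0 fun i ε hε W => ?_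
  obtain ⟨K, W', hK⟩ := hg
  have h1 : Tendsto (fun t : ℝ => K * t ^ (-(1 - q))) atTop (𝓝 (K * 0)) :=
    (tendsto_rpow_neg_atTop (by linarith)).const_mul K
  rw [mul_zero] at h1
  obtain ⟨t, h2, h3, h4, h5⟩ := ((h1.eventually (eventually_le_nhds hε)).and
    ((eventually_ge_atTop W).and ((eventually_ge_atTop W').and (eventually_gt_atTop 0)))).exists
  refine ⟨(t, 0), h3, (hK _ (t, 0) h4).trans ?_⟩
  have : t ^ q = t ^ (-(1 - q)) * t := by
    rw [← Real.rpow_add_one h5.ne']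
    congr 1
    ring
  rw [this, ← mul_assoc]
  exact mul_le_mul_of_nonneg_right h2 h5.le

theorem B' {l : Fin n ⊕ ι → ℝ} {q : ℝ} (hu : MSol m e u l) (hg : (ends m).Gr q u)
    (h0 : ∀ k, ∫ x, pull m (e k) x * u x ∂m.mu0 = 0) : l = 0 ∧ ∀ x ∈ m.reg, u x = 0 :=
  h.B u l hu (memLp_of_gr m hu.cont hg) h0

end Mult

end Vale.Agent.P218KE
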