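import Vale.Agent.P218KE.Slow
import Vale.Agent.P218EN.CanB

/-! The multipliers exist. -/

namespace Vale.Agent.P218KE

open Vale.Agent.P218VA Vale.Agent.P272.K.LIN
open Vale.Agent.P218GA (E3 Model)

/-- **The multipliers exist.** -/
theorem exists_Mult {S : Set E3} {w : E3 → ℝ} {δ C : ℝ} {ι κ M : Type} [TopologicalSpace M]
    [ChartedSpace E2 M] (m : Model S w δ C ι κ M) [Finite κ] [T2Space M] [RSm E2 M]
    [CompactSpace M] [MeasurableSpace M] [BorelSpace M] [Fintype ι] :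
    ∃ (n : ℕ) (s : ℝ) (e : Fin n ⊕ ι → E3 → ℝ), Mult m s e :=
  exists_mult_can m fun _ _ _ _ _ _ _ _ _ I F ha => P218EN.exists_can I F ha

end Vale.Agent.P218KE
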