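import Vale.Agent.P218KE.Dual

/-! Cutting off a Jacobi field which is defined near infinity. -/

open MeasureTheory Set Filter Topology Metric Module
open scoped RealInnerProductSpace ContDiff

namespace Vale.Agent.P218KE

set_option linter.unusedSectionVars false

open Vale.Agent.P218GA Vale.Agent.P218ND
open Vale.Agent.P218.H63 (stab hessSq lap contDiff_gradient)
open Vale.Agent.P218.H313 (trL)

variable {E : Type*} [NormedAddCommGroup E] [InnerProductSpace ℝ E] [FiniteDimensional ℝ E]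
  {w η ζ : E → ℝ} {x : E}

/-- the source created by the cutoff `1 - η` -/
noncomputable def src (w η ζ : E → ℝ) (x : E) : ℝ :=
  -(ζ x * L0 w η x + 2 * ⟪tv w η x, tv w ζ x⟫)

lemma contDiff_tv (hw : ContDiff ℝ 2 w) (hζ : ContDiff ℝ 2 ζ) : ContDiff ℝ 1 (tv w ζ) := by
  have gw : ContDiff ℝ 1 (gradient w) := contDiff_gradient hw (by norm_num)
  have gz : ContDiff ℝ 1 (gradient ζ) := contDiff_gradient hζ (by norm_num)
  exact gz.sub ((gz.inner ℝ gw).smul gw)

lemma contDiff_L0 (hw : ContDiff ℝ 2 w) (hη : ContDiff ℝ 3 η) : ContDiff ℝ 1 (L0 w η) := by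
  have gw : ContDiff ℝ 1 (gradient w) := contDiff_gradient hw (by norm_num)
  have ge : ContDiff ℝ 2 (gradient η) := contDiff_gradient hη (by norm_num)
  have he : ContDiff ℝ 1 (fderiv ℝ (gradient η)) := ge.fderiv_right (by norm_num)
  exact (((trL E).contDiff.comp he).sub ((he.clm_apply gw).inner ℝ gw)).sub
    ((contDiff_id.inner ℝ (ge.of_le (by norm_num))).div_const 2)

lemma contDiff_src (hw : ContDiff ℝ 2 w) (hη : ContDiff ℝ 3 η) (hζ : ContDiff ℝ 2 ζ) :
    ContDiff ℝ 1 (src w η ζ) :=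
  (((hζ.of_le (by norm_num)).mul (contDiff_L0 hw hη)).add (contDiff_const.mul
    ((contDiff_tv hw (hη.of_le (by norm_num))).inner ℝ (contDiff_tv hw hζ)))).neg

lemma tv_of_const {c : ℝ} (h : η =ᶠ[𝓝 x] fun _ => c) : tv w η x = 0 := by
  simp [tv, h.gradient_eq]

lemma src_of_const {c : ℝ} (h : η =ᶠ[𝓝 x] fun _ => c) : src w η ζ x = 0 := by
  simp [src, L0_of_const h, tv_of_const h]

lemma stab_cut (hη : ContDiff ℝ 2 η) (hζ : ContDiff ℝ 2 ζ) (hx : ‖gradient w x‖ = 1) :
    stab w (fun y => (1 - η y) * ζ y) x = (1 - η x) * stab w ζ x + src w η ζ x := by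
  have e : (fun y => (1 - η y) * ζ y) = fun y => ζ y + (-1) * (η y * ζ y) := by
    ext y; ring
  rw [e, stab_add hζ (contDiff_const.mul (hη.mul hζ)), stab_cmul _ (hη.mul hζ), stab_eq w fun y =>
    η y * ζ y, L0_mul hη hζ hx, stab_eq, src]
  ring

lemma tv_one_sub (w η : E → ℝ) (x : E) : tv w (fun y => 1 - η y) x = -tv w η x := by
  have : gradient (fun y => 1 - η y) x = -gradient η x := by
    simp [gradient, fderiv_const_sub]
  simp only [tv, this, inner_neg_left, neg_smul]
  abel

variable [MeasurableSpace E] [BorelSpace E] {m : ℕ} {δ C : ℝ} (h : Shr m w δ C)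
include h

/-- the pairing of the truncated field with its source -/
lemma integral_src (hη : ContDiff ℝ 2 η) (hc : HasCompactSupport η) (hζ : ContDiff ℝ 2 ζ) :
    ∫ x, (1 - η x) * ζ x * src w η ζ x ∂(ga m w)
      = -∫ x, ζ x ^ 2 * ‖tv w η x‖ ^ 2 ∂(ga m w) := by
  have w1 : ContDiff ℝ 1 w := h.tube.smooth.of_le (by norm_num)
  have e1 : ContDiff ℝ 1 η := hη.of_le (by norm_num)
  have z1 : ContDiff ℝ 1 ζ := hζ.of_le (by norm_num)
  have d1 := e1.differentiable one_ne_zero
  have d2 := z1.differentiable one_ne_zero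
  have h1 := h.ibp (f := fun y => (1 - η y) * (ζ y * ζ y)) ((contDiff_const.sub e1).mul (z1.mul z1))
    hη (.inr hc)
  have i1 : Integrable (fun x => ζ x ^ 2 * ‖tv w η x‖ ^ 2) (ga m w) :=
    h.integrable_cc ((hζ.continuous.pow 2).mul ((continuous_tv w1 e1).norm.pow 2))
      (HasCompactSupport.intro (tv_compact (w := w) hc) fun x hx => by
        simp [image_eq_zero_of_notMem_tsupport hx])
  have i2 : Integrable (fun x => (1 - η x) * ζ x * src w η ζ x) (ga m w) :=
    h.integrable_cc (((continuous_const.sub hη.continuous).mul hζ.continuous).mul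
      ((hζ.continuous.mul (continuous_L0 h.tube.smooth hη)).add (continuous_const.mul
        ((continuous_tv w1 e1).inner (continuous_tv w1 z1)))).neg)
      (HasCompactSupport.intro hc fun x hx => by
        rw [src_of_const (notMem_tsupport_iff_eventuallyEq.1 hx), mul_zero])
  rw [eq_neg_iff_add_eq_zero, ← integral_add i2 i1, ← neg_eq_zero, ← integral_neg, ← h1]
  refine integral_congr_ae (Eventually.of_forall fun x => ?_)
  simp only
  rw [tv_mul w ((differentiableAt_const _).fun_sub (d1 x)) ((d2 x).fun_mul (d2 x)),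
    tv_mul w (d2 x) (d2 x), tv_one_sub, src]
  simp only [inner_add_left, inner_smul_left, inner_neg_left, real_inner_self_eq_norm_sq,
    conj_trivial, real_inner_comm (tv w ζ x) (tv w η x)]
  ring

omit h in
lemma locSol_sum {ι : Type*} (s : Finset ι) {U f : ι → E → ℝ} (hU : ∀ i, LocSol w (U i) (f i))
    (c : ι → ℝ) : LocSol w (fun x => ∑ i ∈ s, c i * U i x) fun x => ∑ i ∈ s, c i * f i x := by
  classical
  induction s using Finset.induction_on with
  | empty =>
    simpa using (locSol_of_contDiff (w := w) (U := fun _ : E => (0 : ℝ)) contDiff_const).cmul 0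
  | insert a s ha ih =>
    simp only [Finset.sum_insert ha]
    exact ((hU a).cmul (c a)).add ih

/-- the structure of the solutions of the equation with multipliers -/
theorem eq_sum {n : ℕ} {e k : Fin n → E → ℝ} (he : ∀ i, MemLp (e i) 2 (ga m w))
    (hk : ∀ i, k i ∈ JK m w) (hd : ∀ i j, ∫ x, k i x * e j x ∂(ga m w) = if i = j then 1 else 0)
    (hz : ∀ U : E → ℝ, LocSol w U 0 → MemLp U 2 (ga m w) →
      (∀ j, ∫ x, U x * e j x ∂(ga m w) = 0) → ∀ᵐ x ∂(ga m w), U x = 0)
    {ι : Type*} [Fintype ι] {β f : ι → E → ℝ} (hβ : ∀ i, LocSol w (β i) (f i))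
    (β2 : ∀ i, MemLp (β i) 2 (ga m w)) (βe : ∀ i j x, β i x * e j x = 0)
    {U : E → ℝ} {a : Fin n → ℝ} {b : ι → ℝ}
    (hU : LocSol w U fun x => ∑ i, a i * e i x + ∑ i, b i * f i x) (U2 : MemLp U 2 (ga m w))
    (Ue : ∀ j, ∫ x, U x * e j x ∂(ga m w) = 0) :
    a = 0 ∧ ∀ᵐ x ∂(ga m w), U x = ∑ i, b i * β i x := by
  have hV : LocSol w (fun x => U x + (-1) * ∑ i, b i * β i x) fun x => ∑ i, a i * e i x :=
    (hU.add ((locSol_sum _ hβ b).cmul (-1))).congr (fun _ _ => rfl) fun x _ => by ring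
  have V2 : MemLp (fun x => U x + (-1) * ∑ i, b i * β i x) 2 (ga m w) :=
    U2.add ((memLp_finsetSum _ fun i _ => (β2 i).const_mul _).const_mul _)
  have ha : a = 0 := by
    ext i
    have h1 := h.green_loc ((locSol_of_contDiff (hk i).1).congr (g := 0) (fun _ _ => rfl) (hk i).2.2)
      hV (hk i).2.1 MemLp.zero V2 (memLp_finsetSum _ fun j _ => (he j).const_mul _)
    simp only [Finset.mul_sum, mul_left_comm (k i _)] at h1
    rw [integral_finsetSum _ fun j _ => (int_mul (hk i).2.1 (he j)).const_mul _] at h1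
    simpa [integral_const_mul, hd] using h1
  refine ⟨ha, (hz _ (hV.congr (fun _ _ => rfl) fun x _ => by simp [ha]) V2 fun j => ?_).mono
    fun x hx => by linarith⟩
  rw [← Ue j]
  refine integral_congr_ae (Eventually.of_forall fun x => ?_)
  simp [add_mul, Finset.sum_mul, mul_assoc, βe]

end Vale.Agent.P218KE
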