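import Vale.Agent.P218KE.Fin

/-! Finitely many test functions determine a square integrable Jacobi field. -/

open MeasureTheory Set Filter Topology Metric Module
open scoped RealInnerProductSpace ContDiff

namespace Vale.Agent.P218KE

set_option linter.unusedSectionVars false
set_option maxSynthPendingDepth 3

open Vale.Agent.P218GA Vale.Agent.P218ND
open Vale.Agent.P218.H63 (stab hessSq lap)
open Vale.Agent.P218.H313 (rho)

variable {E : Type*} [NormedAddCommGroup E] [InnerProductSpace ℝ E] [FiniteDimensional ℝ E]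
  [MeasurableSpace E] [BorelSpace E] {m : ℕ} {w : E → ℝ} {δ C : ℝ}

section chart

variable {ν₀ : E} {Θ : OpenPartialHomeomorph E (ℝ × hyp ν₀)} {q₀ : hyp ν₀}

/-- the localisation of a function in a chart -/
noncomputable def lc (Θ : OpenPartialHomeomorph E (ℝ × hyp ν₀)) (ψ : ContDiffBump q₀) (U : E → ℝ)
    (q : hyp ν₀) : ℝ := ψ q * U (par0 Θ q)

variable {ψ : ContDiffBump q₀} {U : E → ℝ}

lemma lc_ev {q : hyp ν₀} (hq : q ∉ closedBall q₀ ψ.rOut) : lc Θ ψ U =ᶠ[𝓝 q] fun _ => 0 := by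
  filter_upwards [isClosed_closedBall.isOpen_compl.mem_nhds hq] with z hz
  rw [lc, ψ.zero_of_le_dist (le_of_not_ge hz), zero_mul]

variable (hΘ : IsChart w ν₀ Θ) (hB : closedBall q₀ ψ.rOut ⊆ dom0 Θ)
include hΘ hB

lemma contDiff_lc (hU : ContDiff ℝ 1 U) : ContDiff ℝ 1 (lc Θ ψ U) := by
  refine contDiff_iff_contDiffAt.2 fun q => ?_
  by_cases hq : q ∈ closedBall q₀ ψ.rOut
  · exact ψ.contDiff.contDiffAt.mul (hU.contDiffAt.comp q
      (hΘ.cd_par0.contDiffAt (isOpen_dom0.mem_nhds (hB hq))))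
  · exact contDiffAt_const.congr_of_eventuallyEq (lc_ev hq)

lemma fderiv_lc_le (hU : ContDiff ℝ 1 U) {q : hyp ν₀} (hq : q ∈ closedBall q₀ ψ.rOut) :
    ‖fderiv ℝ (lc Θ ψ U) q‖ ≤ ‖tv w U (par0 Θ q)‖ * ‖fderiv ℝ (par0 Θ) q‖
      + |U (par0 Θ q)| * ‖fderiv ℝ ψ q‖ := by
  have d1 : DifferentiableAt ℝ (par0 Θ) q :=
    (hΘ.cd_par0.contDiffAt (isOpen_dom0.mem_nhds (hB hq))).differentiableAt one_ne_zero
  have d2 := (hU.differentiable one_ne_zero _).hasFDerivAt.comp q d1.hasFDerivAt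
  have d3 := ((ψ.contDiff (n := 1)).differentiable one_ne_zero q).hasFDerivAt.mul d2
  rw [show fderiv ℝ (lc Θ ψ U) q = _ from d3.fderiv]
  refine (norm_add_le _ _).trans (add_le_add ?_ (norm_smul_le (U (par0 Θ q)) _))
  rw [norm_smul, Real.norm_of_nonneg ψ.nonneg]
  refine (mul_le_of_le_one_left (norm_nonneg _) ψ.le_one).trans
    (ContinuousLinearMap.opNorm_le_bound _ (by positivity) fun v => ?_)
  have h1 : ⟪gradient w (par0 Θ q), fderiv ℝ (par0 Θ) q v⟫ = 0 := by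
    rw [hΘ.fderiv_par0 (hB hq)]
    exact hΘ.hgt _ (hB hq) _
  have h2 : fderiv ℝ U (par0 Θ q) (fderiv ℝ (par0 Θ) q v)
      = ⟪tv w U (par0 Θ q), fderiv ℝ (par0 Θ) q v⟫ := by
    rw [tv, inner_sub_left, inner_smul_left, h1, mul_zero, sub_zero, inner_grad]
  rw [ContinuousLinearMap.comp_apply, h2, mul_assoc]
  exact (norm_inner_le_norm _ _).trans (mul_le_mul_of_nonneg_left
    ((fderiv ℝ (par0 Θ) q).le_opNorm v) (norm_nonneg _))

lemma compact_lc : HasCompactSupport (lc Θ ψ U) :=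
  HasCompactSupport.intro (isCompact_closedBall _ _) fun _ hq => (lc_ev hq).eq_of_nhds

lemma cont_par : ContinuousOn (par0 Θ) (closedBall q₀ ψ.rOut) :=
  hΘ.cd_par0.continuousOn.mono hB

/-- pairing of the localisation with a continuous function -/
noncomputable def lcL {f : hyp ν₀ → ℝ} (hf : Continuous f) : JK m w →ₗ[ℝ] ℝ where
  toFun U := ∫ q, f q * lc Θ ψ U.1 q
  map_add' U V := by
    have il : ∀ U : JK m w, Integrable fun q => f q * lc Θ ψ U.1 q := fun U =>
      (hf.mul (contDiff_lc hΘ hB (U.2.1.of_le one_le_two)).continuous)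
        |>.integrable_of_hasCompactSupport (compact_lc hΘ hB).mul_left
    rw [← integral_add (il U) (il V)]
    simp only [lc, Submodule.coe_add, Pi.add_apply, mul_add]
  map_smul' c U := by
    rw [smul_eq_mul, ← integral_const_mul]
    simp only [lc, Submodule.coe_smul, Pi.smul_apply, smul_eq_mul, RingHom.id_apply,
      mul_left_comm]

variable (h : Shr m w δ C)
include h

lemma cont_J : ContinuousOn (fun q => jac0 m Θ q * rho (par0 Θ q)) (closedBall q₀ ψ.rOut) :=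
  ((hΘ.cont_jac0 h.dim).mono hB).mul (contDiff_rho.continuous.comp_continuousOn (cont_par hΘ hB))

lemma int_le_lc {g : E → ℝ} (hg : Continuous g) (hgc : HasCompactSupport g)
    (hgO : tsupport g ⊆ Θ.source ∩ {x | (crd ν₀ x).2 ∈ ball q₀ ψ.rIn}) :
    ∃ Z, 0 ≤ Z ∧ ∀ U : E → ℝ, ContDiff ℝ 1 U →
      |∫ x, g x * U x ^ 2 ∂(ga m w)| ≤ Z * ∫ q, lc Θ ψ U q ^ 2 := by
  obtain ⟨A, hA⟩ := (isCompact_closedBall _ _).exists_bound_of_continuousOn (cont_J hΘ hB h)
  obtain ⟨G, hG⟩ := hgc.exists_bound_of_continuous hg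
  have A0 : 0 ≤ A := (norm_nonneg _).trans (hA q₀ (mem_closedBall_self ψ.rOut_pos.le))
  have G0 : 0 ≤ G := (norm_nonneg _).trans (hG 0)
  refine ⟨G * A, by positivity, fun U hU => ?_⟩
  have hu := (contDiff_lc hΘ hB hU).continuous
  have iu : Integrable fun q => G * A * lc Θ ψ U q ^ 2 := by
    simpa only [sq, Pi.mul_apply] using ((hu.mul hu).integrable_of_hasCompactSupport
      (μ := volume) (compact_lc hΘ hB).mul_left).const_mul (G * A)
  rw [integral_ga, hΘ.integral_par0 h.dim h.tube.smooth.continuous fun x hx => by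
    rw [image_eq_zero_of_notMem_tsupport fun h' => hx (hgO h').1, zero_mul, zero_mul],
    ← integral_const_mul, ← Real.norm_eq_abs]
  refine (norm_integral_le_of_norm_le iu.restrict ((ae_restrict_mem
    isOpen_dom0.measurableSet).mono fun q hq => ?_)).trans
    (setIntegral_le_integral iu (.of_forall fun q => by positivity))
  by_cases hz : g (par0 Θ q) = 0
  · rw [hz]; simp; positivity
  have h3 : q ∈ ball q₀ ψ.rIn := hΘ.crd_par0 hq ▸ (hgO (subset_tsupport _ hz)).2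
  rw [lc, ψ.one_of_mem_closedBall (ball_subset_closedBall h3), one_mul,
    show jac0 m Θ q * (g (par0 Θ q) * U (par0 Θ q) ^ 2 * rho (par0 Θ q))
      = g (par0 Θ q) * (jac0 m Θ q * rho (par0 Θ q)) * U (par0 Θ q) ^ 2 by ring, norm_mul,
    norm_mul, Real.norm_of_nonneg (sq_nonneg _)]
  gcongr
  exacts [hG _, hA q (ball_subset_closedBall (ball_subset_ball ψ.rIn_lt_rOut.le h3))]

lemma int_par_le {f : E → ℝ} (cf : Continuous f) (hc : HasCompactSupport f) (f0 : ∀ x, 0 ≤ f x) :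
    ∫ q in closedBall q₀ ψ.rOut, jac0 m Θ q • (f (par0 Θ q) * rho (par0 Θ q))
      ≤ ∫ x, f x ∂(ga m w) := by
  have hlf := h.tube.locFin h.dim
  have b1 := (isJac_volume (U := hyp ν₀) (V := E) (hΘ.finrank_eq h.dim)).integral_image
    isOpen_dom0 hΘ.cd_par0 (fun q hq => hΘ.inj_par0 hq) measurableSet_closedBall hB
    (hΘ.injOn_par0.mono hB) fun x => f x * rho x
  have b2 : ∫ x in par0 Θ '' closedBall q₀ ψ.rOut, f x * rho x ∂μH[m]
      ≤ ∫ x, f x * rho x ∂(area m w) :=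
    setIntegral_mono_set ((cf.mul contDiff_rho.continuous).integrable_of_hasCompactSupport
      (μ := area m w) hc.mul_right) (.of_forall fun x => mul_nonneg (f0 x) (Real.exp_pos _).le)
      (LE.le.eventuallyLE (by rintro _ ⟨q, hq, rfl⟩; exact hΘ.w_symm (hB hq)))
  rwa [← integral_ga, b1] at b2

lemma int_fderiv_le : ∃ Z, 0 ≤ Z ∧ ∀ V : E → ℝ, ContDiff ℝ 1 V → HasCompactSupport V →
    ∫ q, ‖fderiv ℝ (lc Θ ψ V) q‖ ^ 2 ≤ Z * ∫ x, (V x ^ 2 + ‖tv w V x‖ ^ 2) ∂(ga m w) := by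
  have cB : IsCompact (closedBall q₀ ψ.rOut) := isCompact_closedBall _ _
  obtain ⟨a, a0, ha⟩ := cB.exists_forall_le' (cont_J hΘ hB h) fun q hq => mul_pos
    ((isJac_volume (U := hyp ν₀) (V := E) (hΘ.finrank_eq h.dim)).pos _ (hΘ.inj_par0 (hB hq)))
    (Real.exp_pos _)
  obtain ⟨D, hD⟩ := cB.exists_bound_of_continuousOn
    ((hΘ.cd_par0.continuousOn_fderiv_of_isOpen isOpen_dom0 le_rfl).mono hB)
  obtain ⟨P, hP⟩ := cB.exists_bound_of_continuousOn
    ((ψ.contDiff (n := 1)).continuous_fderiv one_ne_zero).continuousOn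
  refine ⟨2 * (D ^ 2 + P ^ 2) / a, by positivity, fun V hV hc => ?_⟩
  set f := fun x => V x ^ 2 + ‖tv w V x‖ ^ 2 with hf
  have cf : Continuous f := (hV.continuous.pow 2).add ((continuous_tv h.tube.cd1 hV).norm.pow 2)
  have f0 : ∀ x, 0 ≤ f x := fun x => by positivity
  refine le_trans ?_ (mul_le_mul_of_nonneg_left (int_par_le hΘ hB h cf
    (HasCompactSupport.intro hc fun x hx => by
      have e : V =ᶠ[𝓝 x] fun _ => 0 := notMem_tsupport_iff_eventuallyEq.1 hx
      simp [e.eq_of_nhds, tv, e.gradient_eq]) f0) (by positivity))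
  rw [← setIntegral_eq_integral_of_forall_compl_eq_zero (s := closedBall q₀ ψ.rOut) fun q hq => by
    simp [(lc_ev hq).fderiv_eq], ← integral_const_mul]
  refine setIntegral_mono_on ((((contDiff_lc hΘ hB hV).continuous_fderiv one_ne_zero).norm.pow
    2).continuousOn.integrableOn_compact cB) ((continuousOn_const.mul
      (((hΘ.cont_jac0 h.dim).mono hB).mul ((cf.mul contDiff_rho.continuous).comp_continuousOn
        (cont_par hΘ hB)))).integrableOn_compact cB) cB.measurableSet fun q hq => ?_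
  have b1 := (fderiv_lc_le hΘ hB hV hq).trans (add_le_add
    (mul_le_mul_of_nonneg_left (hD q hq) (norm_nonneg _))
    (mul_le_mul_of_nonneg_left (hP q hq) (abs_nonneg _)))
  have b2 := mul_le_mul_of_nonneg_left (mul_le_mul_of_nonneg_left (ha q hq) (f0 (par0 Θ q)))
    (show 0 ≤ 2 * (D ^ 2 + P ^ 2) by positivity)
  rw [smul_eq_mul, div_mul_eq_mul_div, le_div_iff₀ a0]
  calc _ ≤ 2 * (D ^ 2 + P ^ 2) * f (par0 Θ q) * a := by
        refine mul_le_mul_of_nonneg_right ((pow_le_pow_left₀ (norm_nonneg _) b1 2).trans ?_) a0.le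
        simp only [hf]
        rw [← sq_abs (V _)]
        nlinarith [sq_nonneg (‖tv w V (par0 Θ q)‖ * D - |V (par0 Θ q)| * P),
          sq_nonneg (‖tv w V (par0 Θ q)‖ * P), sq_nonneg (|V (par0 Θ q)| * D)]
    _ ≤ _ := by linarith

end chart

variable (m w) in
/-- the weighted norm is small on a subspace of finite codimension -/
def Small (g : E → ℝ) : Prop :=
  ∀ ε : ℝ, 0 < ε → ∃ s : Set (JK m w →ₗ[ℝ] ℝ), s.Finite ∧ ∀ U : JK m w, (∀ l ∈ s, l U = 0) →
    |∫ x, g x * U.1 x ^ 2 ∂(ga m w)| ≤ ε * ∫ x, U.1 x ^ 2 ∂(ga m w)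

variable (h : Shr m w δ C)
include h

theorem small_chart {ν₀ : E} {Θ : OpenPartialHomeomorph E (ℝ × hyp ν₀)} {q₀ : hyp ν₀}
    {ψ : ContDiffBump q₀} (hΘ : IsChart w ν₀ Θ) (hB : closedBall q₀ ψ.rOut ⊆ dom0 Θ)
    {g : E → ℝ} (hg : Continuous g) (hgc : HasCompactSupport g)
    (hgO : tsupport g ⊆ Θ.source ∩ {x | (crd ν₀ x).2 ∈ ball q₀ ψ.rIn}) : Small m w g := by
  intro ε hε
  obtain ⟨M, M0, hM⟩ := energy h
  obtain ⟨Z₁, a1, h1⟩ := int_le_lc hΘ hB h hg hgc hgO
  obtain ⟨Z₂, a2, h2⟩ := int_fderiv_le hΘ hB h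
  obtain ⟨R, hR⟩ := (isCompact_closedBall _ _).exists_bound_of_continuousOn (cont_par hΘ hB)
  obtain ⟨n, hn⟩ := exists_nat_ge R
  set Z := Z₁ * (Z₂ * (1 + M)) with hZ
  have Z0 : 0 ≤ Z := by positivity
  obtain ⟨s, hs, hsc, hsm⟩ := flat_small (isCompact_closedBall q₀ ψ.rOut)
    (show 0 < ε / (Z + 1) by positivity)
  have := hs.to_subtype
  refine ⟨range fun f : s => lcL hΘ hB (hsc f f.2), Set.finite_range _, fun U hU => ?_⟩
  set V := fun y => ct n y * U.1 y with hVd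
  have hV : ContDiff ℝ 1 V := ((contDiff_ct _).mul U.2.1).of_le one_le_two
  have hc : HasCompactSupport V := (ct_compact _).mul_right
  have e1 : lc Θ ψ U.1 = lc Θ ψ V := funext fun q => by
    by_cases hq : q ∈ closedBall q₀ ψ.rOut
    · rw [lc, lc, hVd]
      simp only [ct_eq_one (n := n) (x := par0 Θ q) (by linarith [hR q hq]), one_mul]
    · rw [(lc_ev hq).eq_of_nhds, (lc_ev hq).eq_of_nhds]
  have h3 := hsm _ (contDiff_lc hΘ hB hV) (fun q hq => (lc_ev hq).eq_of_nhds)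
    fun f hf => e1 ▸ hU _ ⟨⟨f, hf⟩, rfl⟩
  have i1 : Integrable (fun x => V x ^ 2) (ga m w) := by
    simpa using integrable_sq h hV hc (continuous_const (y := (1 : ℝ)))
  have h4 := h2 V hV hc
  have b3 : ∫ x, V x ^ 2 ∂(ga m w) ≤ ∫ x, U.1 x ^ 2 ∂(ga m w) :=
    integral_mono i1 U.2.2.1.integrable_sq fun x => by
      simp only [hVd, mul_pow]
      exact mul_le_of_le_one_left (sq_nonneg _) ((sq_le_one_iff_abs_le_one _).2 (abs_ct_le _ x))
  rw [integral_add i1 (integrable_tv h hV hc)] at h4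
  have h5 : 0 ≤ ∫ x, U.1 x ^ 2 ∂(ga m w) := integral_nonneg fun x => sq_nonneg _
  calc _ ≤ Z₁ * (ε / (Z + 1) * (Z₂ * ((1 + M) * ∫ x, U.1 x ^ 2 ∂(ga m w)))) := by
        refine (h1 _ (U.2.1.of_le one_le_two)).trans (mul_le_mul_of_nonneg_left ?_ a1)
        rw [e1]
        refine h3.trans (mul_le_mul_of_nonneg_left (h4.trans
          (mul_le_mul_of_nonneg_left ?_ a2)) (by positivity))
        linarith [hM U.1 U.2 n]
    _ = ε * (Z / (Z + 1)) * ∫ x, U.1 x ^ 2 ∂(ga m w) := by rw [hZ]; ring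
    _ ≤ _ := mul_le_mul_of_nonneg_right
        (mul_le_of_le_one_right hε.le (div_le_one_of_le₀ (by linarith) (by positivity))) h5

theorem small_loc {p : E} (hp : w p = 0) : ∃ O ∈ 𝓝 p, ∀ g : E → ℝ, Continuous g →
    HasCompactSupport g → tsupport g ⊆ O → Small m w g := by
  obtain ⟨Θ, hpΘ, hΘ⟩ := exists_chart h.tube.cd1 (h.tube.unit p hp)
  have h0 : (crd (gradient w p) p).2 ∈ dom0 Θ := by
    have e : Θ p = (0, (crd (gradient w p) p).2) :=
      Prod.ext (by rw [hΘ.fst]; exact hp) (hΘ.snd p)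
    exact show (0, _) ∈ Θ.target from e ▸ Θ.map_source hpΘ
  obtain ⟨r, r0, hB⟩ := Metric.nhds_basis_closedBall.mem_iff.1 (isOpen_dom0.mem_nhds h0)
  exact ⟨_, inter_mem (Θ.open_source.mem_nhds hpΘ) ((isOpen_ball.preimage
    (crd _).continuous.snd).mem_nhds (mem_ball_self (half_pos r0))), fun g hg hgc hgO =>
      small_chart h (ψ := ⟨r / 2, r, half_pos r0, half_lt_self r0⟩) hΘ hB hg hgc hgO⟩

theorem small {g : E → ℝ} (hg : Continuous g) (hgc : HasCompactSupport g) : Small m w g := by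
  have h5 : ∀ U : JK m w, 0 ≤ ∫ x, U.1 x ^ 2 ∂(ga m w) := fun U =>
    integral_nonneg fun x => sq_nonneg _
  have key := of_local (P := fun g => Continuous g ∧ HasCompactSupport g ∧ Small m w g)
    ⟨continuous_const, HasCompactSupport.zero, fun ε hε => ⟨∅, finite_empty, fun U _ => by
      simpa using mul_nonneg hε.le (h5 U)⟩⟩
    (fun g g' a b => ⟨a.1.add b.1, a.2.1.add b.2.1, fun ε hε => ?_⟩) (fun p => ?_) hg hgc
  · exact key.2.2
  · obtain ⟨s, hs, h1⟩ := a.2.2 (ε / 2) (by positivity)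
    obtain ⟨s', hs', h2⟩ := b.2.2 (ε / 2) (by positivity)
    refine ⟨s ∪ s', hs.union hs', fun U hU => ?_⟩
    have i : ∀ {g : E → ℝ}, Continuous g → HasCompactSupport g →
        Integrable (fun x => g x * U.1 x ^ 2) (ga m w) := fun a b =>
      h.integrable_cc (a.mul (U.2.1.continuous.pow 2)) b.mul_right
    simp only [add_mul]
    rw [integral_add (i a.1 a.2.1) (i b.1 b.2.1)]
    linarith [abs_add_le (∫ x, g x * U.1 x ^ 2 ∂(ga m w)) (∫ x, g' x * U.1 x ^ 2 ∂(ga m w)),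
      h1 U fun l hl => hU l (.inl hl), h2 U fun l hl => hU l (.inr hl)]
  · by_cases hp : w p = 0
    · obtain ⟨O, hO, h1⟩ := small_loc h hp
      exact ⟨O, hO, fun g a b c => ⟨a, b, h1 g a b c⟩⟩
    · refine ⟨{x | w x ≠ 0}, (isOpen_ne_fun h.tube.smooth.continuous continuous_const).mem_nhds hp,
        fun g a b c => ⟨a, b, fun ε hε => ⟨∅, finite_empty, fun U _ => ?_⟩⟩⟩
      rw [integral_eq_zero_of_ae (h.ae_zero.mono fun x hx => by
        simp [image_eq_zero_of_notMem_tsupport fun h' => c h' hx]), abs_zero]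
      exact mul_nonneg hε.le (h5 U)

/-- finitely many linear conditions force a Jacobi field to vanish -/
theorem exists_finite : ∃ s : Set (JK m w →ₗ[ℝ] ℝ), s.Finite ∧ ∀ U : JK m w,
    (∀ l ∈ s, l U = 0) → ∀ᵐ x ∂(ga m w), U.1 x = 0 := by
  obtain ⟨N, hN⟩ := tail h (show (0 : ℝ) < 1 / 4 by norm_num)
  obtain ⟨s, hs, h1⟩ := small h (contDiff_ct N).continuous (ct_compact N) (1 / 4) (by norm_num)
  refine ⟨s, hs, fun U hU => ?_⟩
  have i0 := U.2.2.1.integrable_sq
  have h2 := hN U.1 U.2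
  simp only [sub_mul, one_mul] at h2
  rw [integral_sub i0 ((Shr.lim_ct i0).1 N)] at h2
  have h3 : 0 ≤ ∫ x, U.1 x ^ 2 ∂(ga m w) := integral_nonneg fun x => sq_nonneg _
  have h4 : ∫ x, U.1 x ^ 2 ∂(ga m w) = 0 := by linarith [(le_abs_self _).trans (h1 U hU)]
  exact ((integral_eq_zero_iff_of_nonneg (fun x => sq_nonneg _) i0).1 h4).mono fun x hx =>
    pow_eq_zero_iff two_ne_zero |>.1 hx

variable (E) in
/-- test functions -/
def Test : Submodule ℝ (E → ℝ) where
  carrier := {e | ContDiff ℝ ∞ e ∧ HasCompactSupport e}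
  add_mem' ha hb := ⟨ha.1.add hb.1, ha.2.add hb.2⟩
  zero_mem' := ⟨contDiff_const, HasCompactSupport.zero⟩
  smul_mem' c _ ha := ⟨contDiff_const.mul ha.1, ha.2.smul_left (f := fun _ => c)⟩

/-- **Dual test functions.** -/
theorem exists_dual : ∃ (n : ℕ) (e k : Fin n → E → ℝ),
    (∀ i, ContDiff ℝ ∞ (e i) ∧ HasCompactSupport (e i)) ∧ (∀ i, k i ∈ JK m w) ∧
    (∀ i j, ∫ x, k i x * e j x ∂(ga m w) = if i = j then 1 else 0) ∧
    ∀ U : E → ℝ, LocSol w U 0 → MemLp U 2 (ga m w) → (∀ j, ∫ x, U x * e j x ∂(ga m w) = 0) →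
      ∀ᵐ x ∂(ga m w), U x = 0 := by
  have i : ∀ (U : JK m w) (e : Test E), Integrable (fun x => U.1 x * e.1 x) (ga m w) :=
    fun U e => h.integrable_cc (U.2.1.continuous.mul e.2.1.continuous) e.2.2.mul_left
  let B : JK m w →ₗ[ℝ] Module.Dual ℝ (Test E) := LinearMap.mk₂ ℝ
    (fun U e => ∫ x, U.1 x * e.1 x ∂(ga m w))
    (fun U V e => by simp only [← integral_add (i U e) (i V e), Submodule.coe_add, Pi.add_apply,
      add_mul])
    (fun c U e => by simp only [smul_eq_mul, ← integral_const_mul, Submodule.coe_smul,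
      Pi.smul_apply, mul_assoc])
    (fun U e e' => by simp only [← integral_add (i U e) (i U e'), Submodule.coe_add, Pi.add_apply,
      mul_add])
    (fun c U e => by simp only [smul_eq_mul, ← integral_const_mul, Submodule.coe_smul,
      Pi.smul_apply, mul_left_comm])
  obtain ⟨s, hs, h1⟩ := exists_finite h
  obtain ⟨n, k, e, h2, h3⟩ := exists_dual_of_finite B hs fun U hU => LinearMap.ext fun e =>
    integral_eq_zero_of_ae ((h1 U hU).mono fun x hx => by simp [hx])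
  refine ⟨n, fun i => e i, fun i => k i, fun i => (e i).2, fun i => (k i).2, h2,
    fun U hU hU2 h4 => ?_⟩
  obtain ⟨ζ, hζ, h5⟩ := h.exists_global hU
  have h6 : ζ =ᵐ[ga m w] U := h.ae_zero.mono fun x hx => (h5 x hx).1
  have h7 := h3 ⟨ζ, hζ, (memLp_congr_ae h6).2 hU2, fun x hx => (h5 x hx).2⟩ fun j =>
    (integral_congr_ae (h6.mono fun x hx => by simp only [hx])).trans (h4 j)
  have := h.finite
  filter_upwards [h6, ae_eq_zero_of_integral_contDiff_smul_eq_zero (μ := ga m w)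
    hζ.continuous.locallyIntegrable fun g a b => by
      simp only [smul_eq_mul, mul_comm (g _)]
      exact LinearMap.congr_fun h7 ⟨g, a, b⟩] with x a b
  rw [← a, b]

end Vale.Agent.P218KE
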