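import Vale.Agent.P218KE.Flat
import Vale.Agent.P218ND.Loc

/-! The space of square integrable Jacobi fields of a self-shrinker is finite dimensional. -/

open MeasureTheory Set Filter Topology Metric Module
open scoped RealInnerProductSpace ContDiff

namespace Vale.Agent.P218KE

set_option linter.unusedSectionVars false

open Vale.Agent.P218GA Vale.Agent.P218ND
open Vale.Agent.P218.H63 (stab hessSq lap)
open Vale.Agent.P218.H313 (tr abs_tr_le rho)

variable {E : Type*} [NormedAddCommGroup E] [InnerProductSpace ℝ E] [FiniteDimensional ℝ E]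
  [MeasurableSpace E] [BorelSpace E] {m : ℕ} {w : E → ℝ} {δ C : ℝ}

variable (m w) in
/-- square integrable Jacobi fields -/
def JK : Submodule ℝ (E → ℝ) where
  carrier := {U | ContDiff ℝ 2 U ∧ MemLp U 2 (ga m w) ∧ ∀ x, w x = 0 → stab w U x = 0}
  add_mem' := fun {a b} ha hb => ⟨ha.1.add hb.1, ha.2.1.add hb.2.1, fun x hx => by
    rw [show a + b = fun y => a y + b y from rfl, stab_add ha.1 hb.1, ha.2.2 x hx, hb.2.2 x hx,
      add_zero]⟩
  zero_mem' := ⟨contDiff_const, MemLp.zero, fun x _ => by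
    simpa [← Pi.zero_def] using stab_cmul (w := w) (f := fun _ => 0) 0 contDiff_const x⟩
  smul_mem' := fun c a ha => ⟨contDiff_const.mul ha.1, ha.2.1.const_smul c, fun x hx => by
    rw [show c • a = fun y => c * a y from rfl, stab_cmul c ha.1, ha.2.2 x hx, mul_zero]⟩

lemma tv_compact {V : E → ℝ} (hc : HasCompactSupport V) : HasCompactSupport (tv w V) :=
  HasCompactSupport.intro hc fun x hx => by
    have e : V =ᶠ[𝓝 x] fun _ => 0 := notMem_tsupport_iff_eventuallyEq.1 hx
    simp [tv, e.gradient_eq]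

lemma gradient_norm_sq (x : E) : gradient (fun y : E => ‖y‖ ^ 2) x = (2 : ℝ) • x := by
  refine ext_inner_right ℝ fun v => ?_
  rw [inner_grad, (hasStrictFDerivAt_norm_sq x).hasFDerivAt.fderiv]
  simp [inner_smul_left]

lemma L0_norm_sq (hE : finrank ℝ E = m + 1) {x : E} (hx : ‖gradient w x‖ = 1) :
    L0 w (fun y : E => ‖y‖ ^ 2) x = 2 * m - ‖x‖ ^ 2 := by
  have h1 : fderiv ℝ (gradient fun y : E => ‖y‖ ^ 2) x = (2 : ℝ) • ContinuousLinearMap.id ℝ E := by
    rw [funext gradient_norm_sq]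
    exact ((hasFDerivAt_id x).const_smul (2 : ℝ)).fderiv
  rw [L0, lap_eq_tr, h1, gradient_norm_sq]
  simp only [smul_apply, ContinuousLinearMap.id_apply, inner_smul_left,
    inner_smul_right, real_inner_self_eq_norm_sq, hx]
  simp [tr, hE]
  ring

variable (h : Shr m w δ C)
include h

lemma integrable_sq {V : E → ℝ} (hV : ContDiff ℝ 1 V) (hc : HasCompactSupport V) {f : E → ℝ}
    (hf : Continuous f) : Integrable (fun x => f x * V x ^ 2) (ga m w) :=
  h.integrable_cc (hf.mul (hV.continuous.pow 2))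
    (HasCompactSupport.intro hc fun x hx => by simp [image_eq_zero_of_notMem_tsupport hx])

lemma integrable_tv {V : E → ℝ} (hV : ContDiff ℝ 1 V) (hc : HasCompactSupport V) :
    Integrable (fun x => ‖tv w V x‖ ^ 2) (ga m w) :=
  h.integrable_cc ((continuous_tv h.tube.cd1 hV).norm.pow 2)
    (HasCompactSupport.intro (tv_compact (w := w) hc) fun x hx => by
      simp [image_eq_zero_of_notMem_tsupport hx])

/-- **Ecker's inequality.** -/
theorem ecker {V : E → ℝ} (hV : ContDiff ℝ 1 V) (hc : HasCompactSupport V) :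
    ∫ x, ‖x‖ ^ 2 * V x ^ 2 ∂(ga m w)
      ≤ 4 * m * ∫ x, V x ^ 2 ∂(ga m w) + 16 * ∫ x, ‖tv w V x‖ ^ 2 ∂(ga m w) := by
  have hη : ContDiff ℝ 2 fun y : E => ‖y‖ ^ 2 := contDiff_norm_sq ℝ
  have e0 := h.ibp (hV.mul hV) hη (.inl hc.mul_left)
  have i1 := integrable_sq h hV hc hη.continuous
  have i2 := integrable_sq h hV hc (continuous_const (y := (4 * m : ℝ)))
  have i3 := (integrable_tv h hV hc).const_mul 16
  have i4 : Integrable (fun x => -2 * (V x * V x * L0 w (fun y => ‖y‖ ^ 2) x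
      + ⟪tv w (fun x => V x * V x) x, tv w (fun y => ‖y‖ ^ 2) x⟫)) (ga m w) := by
    refine (h.integrable_cc (((hV.mul hV).continuous.mul (continuous_L0 h.tube.smooth hη)).add
      ((continuous_tv h.tube.cd1 (hV.mul hV)).inner
        (continuous_tv h.tube.cd1 (hη.of_le one_le_two)))) ?_).const_mul _
    refine hc.mul_left.mul_right.add (HasCompactSupport.intro (tv_compact (w := w)
      (hc.mul_left (f := V))) fun x hx => ?_)
    rw [show (fun x => V x * V x) = V * V from rfl, image_eq_zero_of_notMem_tsupport hx,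
      inner_zero_left]
  have i5 : Integrable (fun x => 4 * m * V x ^ 2 + 16 * ‖tv w V x‖ ^ 2) (ga m w) := i2.add i3
  rw [← integral_const_mul, ← integral_const_mul, ← integral_add i2 i3]
  refine (integral_mono_ae i1 (i4.add i5) ?_).trans_eq ?_
  · filter_upwards [h.ae_zero] with x hx
    have dV := hV.differentiable one_ne_zero x
    have b1 : ‖tv w (fun y : E => ‖y‖ ^ 2) x‖ ≤ 2 * ‖x‖ :=
      (norm_tv_le (h.tube.unit x hx) _).trans_eq (by rw [gradient_norm_sq, norm_smul]; simp)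
    have b2 := (real_inner_le_norm (V x • tv w V x) (tv w (fun y : E => ‖y‖ ^ 2) x)).trans
      (mul_le_mul_of_nonneg_left b1 (norm_nonneg _))
    rw [norm_smul, Real.norm_eq_abs] at b2
    simp only [Pi.add_apply]
    rw [L0_norm_sq h.dim (h.tube.unit x hx), tv_mul w dV dV, inner_add_left]
    nlinarith [sq_nonneg (|V x| * ‖x‖ - 4 * ‖tv w V x‖), sq_abs (V x)]
  · simp only [Pi.add_apply]
    rw [integral_add i4 i5, integral_const_mul, e0]; simp

/-- the energy of truncated Jacobi fields -/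
theorem energy : ∃ M : ℝ, 0 ≤ M ∧ ∀ U ∈ JK m w, ∀ n : ℕ,
    ∫ x, ‖tv w (fun y => ct n y * U y) x‖ ^ 2 ∂(ga m w) ≤ M * ∫ x, U x ^ 2 ∂(ga m w) := by
  obtain ⟨K, K0, hK⟩ := exists_ct_bound E
  refine ⟨K ^ 2 + (finrank ℝ E * (C * C) + 1 / 2), by positivity [mul_self_nonneg C],
    fun U ⟨hU, h1, h2⟩ n => ?_⟩
  have hc := contDiff_ct (E := E) n
  have hf : ContDiff ℝ 1 fun x => ct n x * (ct n x * U x) := (hc.mul (hc.mul hU)).of_le one_le_two
  have hfc : HasCompactSupport fun x => ct n x * (ct n x * U x) := (ct_compact n).mul_right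
  have e0 := h.ibp hf hU (.inl hfc)
  have i1 : Integrable (fun x => ct n x * (ct n x * U x) * L0 w U x
      + ⟪tv w (fun x => ct n x * (ct n x * U x)) x, tv w U x⟫) (ga m w) :=
    h.integrable_cc ((hf.continuous.mul (continuous_L0 h.tube.smooth hU)).add
      ((continuous_tv h.tube.cd1 hf).inner (continuous_tv h.tube.cd1 (hU.of_le one_le_two))))
      (hfc.mul_right.add (HasCompactSupport.intro (tv_compact (w := w) hfc) fun x hx => by
        rw [image_eq_zero_of_notMem_tsupport hx, inner_zero_left]))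
  have i2 := h1.integrable_sq.const_mul (K ^ 2 + (finrank ℝ E * (C * C) + 1 / 2))
  refine (integral_mono_ae (integrable_tv h ((hc.mul hU).of_le one_le_two)
    (ct_compact n).mul_right) (i1.add i2) ?_).trans_eq ?_
  · filter_upwards [h.ae_zero] with x hx
    have dc := hc.differentiable two_ne_zero x
    have dU := hU.differentiable two_ne_zero x
    have b1 : ‖tv w (ct n) x‖ ^ 2 ≤ K ^ 2 := pow_le_pow_left₀ (norm_nonneg _)
      ((norm_tv_le (h.tube.unit x hx) _).trans ((hK n x).1.trans (div_le_self K0 (by simp)))) 2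
    have b2 : hessSq w x ≤ finrank ℝ E * (C * C) :=
      (le_abs_self _).trans ((abs_tr_le _).trans (mul_le_mul_of_nonneg_left
        ((ContinuousLinearMap.opNorm_comp_le _ _).trans (mul_self_le_mul_self (norm_nonneg _)
          (h.tube.hess_le x (h.tube.lt_of_zero hx)))) (Nat.cast_nonneg _)))
    have b3 : ct n x ^ 2 ≤ 1 := (sq_le_one_iff_abs_le_one _).2 (abs_ct_le n x)
    have b4 : L0 w U x = -((hessSq w x + 1 / 2) * U x) := by
      linarith [h2 x hx, stab_eq w U x]
    have b5 : ct n x ^ 2 * (hessSq w x + 1 / 2) ≤ finrank ℝ E * (C * C) + 1 / 2 :=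
      (mul_le_mul_of_nonneg_left (by linarith) (sq_nonneg _)).trans
        (mul_le_of_le_one_left (by positivity [mul_self_nonneg C]) b3)
    simp only [Pi.add_apply]
    rw [tv_mul w dc (dc.fun_mul dU), tv_mul w dc dU, b4, norm_add_sq_real]
    simp only [inner_add_left, inner_smul_left, inner_smul_right, conj_trivial, norm_smul,
      real_inner_self_eq_norm_sq, mul_pow, Real.norm_eq_abs, sq_abs,
      real_inner_comm (tv w (ct n) x)]
    nlinarith [mul_le_mul_of_nonneg_right b1 (sq_nonneg (U x)),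
      mul_le_mul_of_nonneg_right b5 (sq_nonneg (U x))]
  · simp only [Pi.add_apply]
    rw [integral_add i1 i2, integral_const_mul, e0, zero_add]

/-- the tails of Jacobi fields -/
theorem tail {ε : ℝ} (hε : 0 < ε) : ∃ N : ℕ, ∀ U ∈ JK m w,
    ∫ x, (1 - ct N x) * U x ^ 2 ∂(ga m w) ≤ ε * ∫ x, U x ^ 2 ∂(ga m w) := by
  obtain ⟨M, M0, hM⟩ := energy h
  obtain ⟨N, hN⟩ := exists_nat_ge (2 * (4 * m + 16 * M) / ε)
  refine ⟨N, fun U hU => ?_⟩
  have i0 := hU.2.1.integrable_sq
  have b0 : ∀ x : E, |1 - ct N x| ≤ 2 := fun x => by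
    have := abs_le.1 (abs_ct_le N x)
    rw [abs_le]; constructor <;> linarith
  have i1 : Integrable (fun x => (1 - ct N x) * U x ^ 2) (ga m w) :=
    i0.bdd_mul (c := 2) (continuous_const.sub (contDiff_ct N).continuous).aestronglyMeasurable
      (.of_forall b0)
  refine le_of_tendsto' (Shr.lim_ct i1).2 fun n => ?_
  have hV : ContDiff ℝ 1 fun y => ct (2 * n + 1) y * U y :=
    ((contDiff_ct _).mul hU.1).of_le one_le_two
  have hc : HasCompactSupport fun y => ct (2 * n + 1) y * U y := (ct_compact _).mul_right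
  have h1 := ecker h hV hc
  have h2 : ∫ x, (ct (2 * n + 1) x * U x) ^ 2 ∂(ga m w) ≤ ∫ x, U x ^ 2 ∂(ga m w) :=
    integral_mono_of_nonneg (.of_forall fun x => sq_nonneg _) i0 (.of_forall fun x => by
      simp only [mul_pow]
      exact mul_le_of_le_one_left (sq_nonneg _) ((sq_le_one_iff_abs_le_one _).2 (abs_ct_le _ x)))
  have h3 : ∫ x, ct n x * ((1 - ct N x) * U x ^ 2) ∂(ga m w)
      ≤ ∫ x, 2 / (N + 1) * (‖x‖ ^ 2 * (ct (2 * n + 1) x * U x) ^ 2) ∂(ga m w) := by
    refine integral_mono ((Shr.lim_ct i1).1 n) ((integrable_sq h hV hc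
      (continuous_norm.pow 2)).const_mul _) fun x => ?_
    simp only
    by_cases a1 : ‖x‖ ≤ (N : ℝ) + 1
    · rw [ct_eq_one a1]; simp; positivity
    by_cases a2 : 2 * ((n : ℝ) + 1) ≤ ‖x‖
    · rw [ct_eq_zero a2]; simp; positivity
    rw [ct_eq_one (n := 2 * n + 1) (by push_cast; linarith), one_mul, ← mul_assoc, ← mul_assoc]
    refine mul_le_mul_of_nonneg_right ((le_abs_self _).trans ?_) (sq_nonneg _)
    rw [abs_mul, div_mul_eq_mul_div, le_div_iff₀ (by positivity)]
    have a3 : |ct n x| * |1 - ct N x| ≤ 2 := by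
      nlinarith [abs_ct_le n x, b0 x, abs_nonneg (ct n x), abs_nonneg (1 - ct N x)]
    have a4 : (N : ℝ) + 1 ≤ ‖x‖ ^ 2 := by nlinarith [Nat.cast_nonneg (α := ℝ) N]
    gcongr
  have h4 : 0 ≤ ∫ x, U x ^ 2 ∂(ga m w) := integral_nonneg fun x => sq_nonneg (U x)
  have h5 : 2 / ((N : ℝ) + 1) * (4 * m + 16 * M) ≤ ε := by
    rw [div_le_iff₀ hε] at hN
    rw [div_mul_eq_mul_div, div_le_iff₀ (by positivity)]
    linarith
  rw [integral_const_mul] at h3
  refine h3.trans (le_trans ?_ (mul_le_mul_of_nonneg_right h5 h4))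
  rw [mul_assoc]
  gcongr
  nlinarith [hM U hU (2 * n + 1), Nat.cast_nonneg (α := ℝ) m]

end Vale.Agent.P218KE
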