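import Mathlib.Analysis.Calculus.BumpFunction.Normed
import Mathlib.Analysis.Calculus.BumpFunction.FiniteDimension
import Mathlib.MeasureTheory.Integral.Prod
import Mathlib.MeasureTheory.Integral.IntervalIntegral.FundThmCalculus
import Mathlib.MeasureTheory.Measure.Haar.InnerProductSpace
import Mathlib.MeasureTheory.Group.Integral
import Mathlib.Algebra.QuadraticDiscriminant
import Mathlib.LinearAlgebra.Dual.Lemmas

/-! A Poincaré inequality on a subspace of finite codimension, in the flat space. -/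

open MeasureTheory Set Filter Topology Metric

namespace Vale.Agent.P218KE

/-- the Cauchy-Schwarz inequality with a weight -/
lemma sq_int_le {X : Type*} [MeasurableSpace X] {μ : Measure X} {φ g : X → ℝ} (h0 : ∀ x, 0 ≤ φ x)
    (i0 : Integrable φ μ) (i1 : Integrable (fun x => φ x * g x) μ)
    (i2 : Integrable (fun x => φ x * g x ^ 2) μ) :
    (∫ x, φ x * g x ∂μ) ^ 2 ≤ (∫ x, φ x ∂μ) * ∫ x, φ x * g x ^ 2 ∂μ := by
  have h := discrim_le_zero (a := ∫ x, φ x ∂μ) (b := -2 * ∫ x, φ x * g x ∂μ)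
    (c := ∫ x, φ x * g x ^ 2 ∂μ) fun c => by
      have h1 : 0 ≤ ∫ x, ((c * c * φ x + -2 * c * (φ x * g x)) + φ x * g x ^ 2) ∂μ :=
        integral_nonneg fun x => by
          have := mul_nonneg (h0 x) (sq_nonneg (g x - c))
          simp only [Pi.zero_apply]
          linarith
      have j0 := i0.const_mul (c * c)
      have j1 := i1.const_mul (-2 * c)
      have j2 : Integrable (fun x => c * c * φ x + -2 * c * (φ x * g x)) μ := j0.add j1
      rw [integral_add j2 i2, integral_add j0 j1, integral_const_mul, integral_const_mul] at h1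
      linarith
  rw [discrim] at h
  linarith

lemma sq_int_le' {X : Type*} [MeasurableSpace X] {μ : Measure X} [IsFiniteMeasure μ] {g : X → ℝ}
    (i1 : Integrable g μ) (i2 : Integrable (fun x => g x ^ 2) μ) :
    (∫ x, g x ∂μ) ^ 2 ≤ μ.real univ * ∫ x, g x ^ 2 ∂μ := by
  simpa using sq_int_le (φ := fun _ => 1) (fun _ => zero_le_one) (integrable_const 1)
    (by simpa only [one_mul] using i1) (by simpa only [one_mul] using i2)

variable {T : Type*} [NormedAddCommGroup T] [InnerProductSpace ℝ T] [FiniteDimensional ℝ T]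
  [MeasurableSpace T] [BorelSpace T]

/-- averages of translates -/
lemma integral_translates {Y : Type*} [TopologicalSpace Y] [MeasurableSpace Y]
    [OpensMeasurableSpace Y] [SecondCountableTopology Y] (ν : Measure Y) [SFinite ν] {c : Y → T}
    (hc : Continuous c) {φ : Y → ℝ} (hφ : Continuous φ) (iφ : Integrable φ ν) {G : T → ℝ}
    (hG : Continuous G) (iG : Integrable G) :
    Integrable (fun x => ∫ y, φ y * G (x - c y) ∂ν) ∧
      ∫ x, ∫ y, φ y * G (x - c y) ∂ν = (∫ y, φ y ∂ν) * ∫ x, G x := by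
  have h1 : Integrable (fun p : T × Y => φ p.2 * G (p.1 - c p.2)) (volume.prod ν) := by
    rw [integrable_prod_iff' (Continuous.aestronglyMeasurable (by fun_prop))]
    refine ⟨.of_forall fun y => (iG.comp_sub_right (c y)).const_mul (φ y), ?_⟩
    simp only [norm_mul, integral_const_mul, integral_sub_right_eq_self (fun x => ‖G x‖)]
    exact iφ.norm.mul_const _
  refine ⟨h1.integral_prod_left, ?_⟩
  rw [integral_integral_swap h1]
  simp only [integral_const_mul, integral_sub_right_eq_self G, integral_mul_const]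

lemma sq_sub_le {u : T → ℝ} (hu : ContDiff ℝ 1 u) (x z : T) :
    (u x - u (x - z)) ^ 2 ≤ ‖z‖ ^ 2 * ∫ t in Ioc (0 : ℝ) 1, 1 * ‖fderiv ℝ u (x - t • z)‖ ^ 2 := by
  have hD := hu.continuous_fderiv one_ne_zero
  have h1 : ∀ t : ℝ, HasDerivAt (fun t : ℝ => -u (x - t • z)) (fderiv ℝ u (x - t • z) z) t := by
    intro t
    have h2 := ((hu.differentiable one_ne_zero _).hasFDerivAt.comp_hasDerivAt t
      (((hasDerivAt_id t).smul_const z).const_sub x)).neg
    rw [map_neg, neg_neg, one_smul] at h2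
    exact h2
  have c1 : Continuous fun t : ℝ => fderiv ℝ u (x - t • z) z := by fun_prop
  have c2 : Continuous fun t : ℝ => fderiv ℝ u (x - t • z) z ^ 2 := by fun_prop
  have h3 := intervalIntegral.integral_eq_sub_of_hasDerivAt (a := 0) (b := 1) (fun t _ => h1 t)
    (c1.intervalIntegrable _ _)
  rw [intervalIntegral.integral_of_le zero_le_one] at h3
  have h4 := sq_int_le' (μ := volume.restrict (Ioc (0 : ℝ) 1)) c1.integrableOn_Ioc
    c2.integrableOn_Ioc
  simp only [one_mul, h3, one_smul, zero_smul, sub_zero] at h4 ⊢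
  rw [← integral_const_mul]
  refine le_trans ?_ (setIntegral_mono c2.integrableOn_Ioc
    (Continuous.integrableOn_Ioc (by fun_prop)) fun t => ?_)
  · simp only [measureReal_restrict_apply_univ, Real.volume_real_Ioc] at h4
    norm_num at h4
    linarith
  · simp only
    rw [← mul_pow, mul_comm, ← sq_abs]
    exact pow_le_pow_left₀ (abs_nonneg _) ((fderiv ℝ u (x - t • z)).le_opNorm z) 2

/-- translations in the mean -/
lemma integral_sq_sub_le {u : T → ℝ} (hu : ContDiff ℝ 1 u) (hc : HasCompactSupport u) (z : T) :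
    ∫ x, (u x - u (x - z)) ^ 2 ≤ ‖z‖ ^ 2 * ∫ x, ‖fderiv ℝ u x‖ ^ 2 := by
  have hG : Continuous fun x => ‖fderiv ℝ u x‖ ^ 2 := (hu.continuous_fderiv one_ne_zero).norm.pow 2
  have iG : Integrable fun x => ‖fderiv ℝ u x‖ ^ 2 := hG.integrable_of_hasCompactSupport
    ((hc.fderiv ℝ).comp_left (g := fun L => ‖L‖ ^ 2) (by simp))
  obtain ⟨h1, h2⟩ := integral_translates (volume.restrict (Ioc (0 : ℝ) 1))
    (c := fun t => t • z) (by fun_prop) (φ := fun _ => 1) continuous_const (by simp) hG iG
  refine (integral_mono_of_nonneg (.of_forall fun x => sq_nonneg _) (h1.const_mul _)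
    (.of_forall fun x => sq_sub_le hu x z)).trans_eq ?_
  rw [integral_const_mul, h2]
  simp

lemma integrable_sq_sub {u : T → ℝ} (cu : Continuous u) (hc : HasCompactSupport u) (z : T) :
    Integrable fun x => (u x - u (x - z)) ^ 2 := by
  have i1 : Integrable fun x => u x * u x :=
    (cu.mul cu).integrable_of_hasCompactSupport hc.mul_left
  have i2 : Integrable fun x => u x ^ 2 := by simpa only [sq] using i1
  refine ((i2.const_mul 2).add ((i2.comp_sub_right z).const_mul 2)).mono'
    (Continuous.aestronglyMeasurable (by fun_prop)) (.of_forall fun x => ?_)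
  rw [Real.norm_of_nonneg (sq_nonneg _)]
  simp only [Pi.add_apply]
  linarith [sq_nonneg (u x + u (x - z))]

/-- the distance to the mollified function -/
lemma integral_sq_moll_le {u : T → ℝ} (hu : ContDiff ℝ 1 u) (hc : HasCompactSupport u)
    {φ : T → ℝ} (hφ : Continuous φ) (iφ : Integrable φ) (h0 : ∀ z, 0 ≤ φ z) (h1 : ∫ z, φ z = 1)
    {ε : ℝ} (hε : ∀ z, ε < ‖z‖ → φ z = 0) :
    Integrable (fun x => ∫ z, φ z * (u x - u (x - z)) ^ 2) ∧
      ∫ x, ∫ z, φ z * (u x - u (x - z)) ^ 2 ≤ ε ^ 2 * ∫ x, ‖fderiv ℝ u x‖ ^ 2 := by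
  have cu := hu.continuous
  have hb : ∀ z, φ z * ∫ x, (u x - u (x - z)) ^ 2 ≤ φ z * (ε ^ 2 * ∫ x, ‖fderiv ℝ u x‖ ^ 2) := by
    intro z
    by_cases hz : ε < ‖z‖
    · simp [hε z hz]
    · exact mul_le_mul_of_nonneg_left ((integral_sq_sub_le hu hc z).trans
        (mul_le_mul_of_nonneg_right (pow_le_pow_left₀ (norm_nonneg _) (not_lt.1 hz) 2)
          (integral_nonneg fun x => sq_nonneg _))) (h0 z)
  have m1 : AEStronglyMeasurable (fun p : T × T => φ p.2 * (u p.1 - u (p.1 - p.2)) ^ 2)
      (volume.prod volume) := Continuous.aestronglyMeasurable (by fun_prop)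
  have n1 : ∀ z, ∫ x, ‖φ z * (u x - u (x - z)) ^ 2‖ = φ z * ∫ x, (u x - u (x - z)) ^ 2 := by
    intro z
    rw [← integral_const_mul]
    exact integral_congr_ae (.of_forall fun x =>
      Real.norm_of_nonneg (mul_nonneg (h0 z) (sq_nonneg _)))
  have m2 : AEStronglyMeasurable (fun z => ∫ x, ‖φ z * (u x - u (x - z)) ^ 2‖) volume :=
    AEStronglyMeasurable.integral_prod_right' (f := fun p : T × T =>
      ‖φ p.1 * (u p.2 - u (p.2 - p.1)) ^ 2‖) (Continuous.aestronglyMeasurable (by fun_prop))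
  have i4 : Integrable (fun p : T × T => φ p.2 * (u p.1 - u (p.1 - p.2)) ^ 2)
      (volume.prod volume) := by
    rw [integrable_prod_iff' m1]
    refine ⟨.of_forall fun z => (integrable_sq_sub cu hc z).const_mul (φ z),
      (iφ.mul_const (ε ^ 2 * ∫ x, ‖fderiv ℝ u x‖ ^ 2)).mono' m2 (.of_forall fun z => ?_)⟩
    rw [Real.norm_of_nonneg (integral_nonneg fun x => norm_nonneg _), n1]
    exact hb z
  refine ⟨i4.integral_prod_left, ?_⟩
  calc _ = ∫ z, φ z * ∫ x, (u x - u (x - z)) ^ 2 := by
        rw [integral_integral_swap i4]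
        simp only [integral_const_mul]
    _ ≤ ∫ z, φ z * (ε ^ 2 * ∫ x, ‖fderiv ℝ u x‖ ^ 2) :=
        integral_mono_of_nonneg (.of_forall fun z => mul_nonneg (h0 z)
          (integral_nonneg fun x => sq_nonneg _)) (iφ.mul_const _) (.of_forall hb)
    _ = _ := by rw [integral_mul_const, h1, one_mul]

/-- **Poincaré inequality in finite codimension.** -/
theorem flat_small {B : Set T} (hB : IsCompact B) {ε : ℝ} (hε : 0 < ε) :
    ∃ s : Set (T → ℝ), s.Finite ∧ (∀ f ∈ s, Continuous f) ∧ ∀ u : T → ℝ, ContDiff ℝ 1 u →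
      (∀ x, x ∉ B → u x = 0) → (∀ f ∈ s, ∫ x, f x * u x = 0) →
        ∫ x, u x ^ 2 ≤ ε * ∫ x, ‖fderiv ℝ u x‖ ^ 2 := by
  set r := √(ε / 4) with hr
  have r0 : 0 < r := Real.sqrt_pos.2 (by positivity)
  let b : ContDiffBump (0 : T) := ⟨r / 2, r, by positivity, by linarith⟩
  set φ := b.normed volume
  have hφ : Continuous φ := b.continuous_normed
  set V := volume.real B
  have V0 : 0 ≤ V := measureReal_nonneg
  set η := 1 / (2 * (V + 1)) with hη
  have η0 : 0 < η := by positivity
  obtain ⟨d, d0, hd⟩ := Metric.uniformContinuous_iff.1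
    (b.hasCompactSupport_normed.uniformContinuous_of_continuous hφ) η η0
  obtain ⟨t, -, ht, hBt⟩ := hB.finite_cover_balls d0
  refine ⟨(fun x y => φ (x - y)) '' t, ht.image _, ?_, fun u hu h0 h1 => ?_⟩
  · rintro _ ⟨x, -, rfl⟩
    fun_prop
  have hc : HasCompactSupport u := HasCompactSupport.intro hB h0
  have cu := hu.continuous
  have j : ∀ {g : T → ℝ}, Continuous g → Integrable fun z => g z * u z := fun hg =>
    (hg.mul cu).integrable_of_hasCompactSupport hc.mul_left
  have iu : Integrable u := cu.integrable_of_hasCompactSupport hc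
  have i2 : Integrable fun x => u x ^ 2 := by simpa only [sq] using j cu
  have e2 : ∫ x in B, u x ^ 2 = ∫ x, u x ^ 2 :=
    setIntegral_eq_integral_of_forall_compl_eq_zero fun x hx => by simp [h0 x hx]
  have e1 : ∫ x in B, |u x| = ∫ x, |u x| :=
    setIntegral_eq_integral_of_forall_compl_eq_zero fun x hx => by simp [h0 x hx]
  have : IsFiniteMeasure (volume.restrict B) := isFiniteMeasure_restrict.2 hB.measure_lt_top.ne
  have h2 : (∫ x, |u x|) ^ 2 ≤ V * ∫ x, u x ^ 2 := by
    have := sq_int_le' (μ := volume.restrict B) (g := fun x => |u x|) iu.abs.integrableOn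
      (by simpa only [sq_abs] using i2.restrict)
    simpa only [e1, e2, sq_abs, measureReal_restrict_apply_univ] using this
  have h3 : ∀ x ∈ B, (∫ z, φ z * u (x - z)) ^ 2 ≤ η ^ 2 * (V * ∫ x, u x ^ 2) := by
    intro x hx
    obtain ⟨y, hy, hxy⟩ := mem_iUnion₂.1 (hBt hx)
    have h4 : ∫ z, φ z * u (x - z) = ∫ z, (φ (x - z) - φ (y - z)) * u z := by
      simp only [sub_mul]
      rw [integral_sub (j (by fun_prop)) (j (by fun_prop)), h1 _ ⟨y, hy, rfl⟩, sub_zero,
        ← integral_sub_left_eq_self (fun z => φ (x - z) * u z) volume x]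
      simp
    have h5 : |∫ z, φ z * u (x - z)| ≤ η * ∫ z, |u z| := by
      rw [h4, ← integral_const_mul, ← Real.norm_eq_abs]
      refine norm_integral_le_of_norm_le (iu.abs.const_mul _) (.of_forall fun z => ?_)
      rw [norm_mul]
      refine mul_le_mul_of_nonneg_right (le_of_lt (hd (a := x - z) (b := y - z) ?_)) (abs_nonneg _)
      rwa [dist_sub_right]
    refine le_trans ?_ (mul_le_mul_of_nonneg_left h2 (sq_nonneg η))
    rw [← mul_pow, ← sq_abs]
    exact pow_le_pow_left₀ (abs_nonneg _) h5 2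
  obtain ⟨i6, h6⟩ := integral_sq_moll_le hu hc hφ b.integrable_normed b.nonneg_normed
    b.integral_normed (ε := r) fun z hz => Function.notMem_support.1 (by
      rw [b.support_normed_eq, mem_ball_zero_iff]; exact not_lt.2 hz.le)
  have hp : ∀ x, (u x - ∫ z, φ z * u (x - z)) ^ 2 ≤ ∫ z, φ z * (u x - u (x - z)) ^ 2 := by
    intro x
    have j : ∀ {g : T → ℝ}, Continuous g → Integrable fun z => φ z * g z := fun hg =>
      (hφ.mul hg).integrable_of_hasCompactSupport b.hasCompactSupport_normed.mul_right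
    have h2 := sq_int_le (μ := volume) (g := fun z => u x - u (x - z)) b.nonneg_normed
      b.integrable_normed (j (by fun_prop)) (j (by fun_prop))
    simp only [mul_sub] at h2
    rwa [integral_sub (b.integrable_normed.mul_const _) (j (by fun_prop)), integral_mul_const,
      b.integral_normed, one_mul, one_mul] at h2
  have h7 : ∫ x in B, u x ^ 2 ≤ ∫ x in B, (2 * (∫ z, φ z * (u x - u (x - z)) ^ 2)
      + 2 * (η ^ 2 * (V * ∫ x, u x ^ 2))) :=
    setIntegral_mono_on i2.integrableOn ((i6.const_mul 2).restrict.add (integrable_const _))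
      hB.measurableSet fun x hx => by
        linarith [hp x, h3 x hx, sq_nonneg (u x - 2 * ∫ z, φ z * u (x - z))]
  rw [e2, integral_add (i6.const_mul 2).restrict (integrable_const _), integral_const_mul,
    integral_const, measureReal_restrict_apply_univ, smul_eq_mul] at h7
  have h8 := setIntegral_le_integral (s := B) i6 (.of_forall fun x =>
    integral_nonneg fun z => mul_nonneg (b.nonneg_normed z) (sq_nonneg _))
  have h9 : (η * V) ^ 2 ≤ (1 / 2) ^ 2 := by
    refine pow_le_pow_left₀ (by positivity) ?_ 2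
    rw [hη, one_div_mul_eq_div, div_le_iff₀ (by positivity)]
    linarith
  have h10 := mul_le_mul_of_nonneg_right h9
    (integral_nonneg (μ := volume) fun x => sq_nonneg (u x))
  rw [hr, Real.sq_sqrt (by positivity)] at h6
  change _ ≤ _ + V * _ at h7
  linarith

lemma finite_range {K D : Type*} [AddCommGroup K] [Module ℝ K] [AddCommGroup D]
    [Module ℝ D] (B : K →ₗ[ℝ] D) {s : Set (K →ₗ[ℝ] ℝ)} (hs : s.Finite)
    (h : ∀ U, (∀ l ∈ s, l U = 0) → B U = 0) : FiniteDimensional ℝ (LinearMap.range B) := by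
  have := hs.to_subtype
  let Λ : K →ₗ[ℝ] s → ℝ := LinearMap.pi fun l => (l : K →ₗ[ℝ] ℝ)
  have h1 : LinearMap.ker Λ ≤ LinearMap.ker B.rangeRestrict := fun U hU => by
    rw [LinearMap.ker_rangeRestrict]
    exact h U fun l hl => congrFun hU ⟨l, hl⟩
  have : FiniteDimensional ℝ (K ⧸ LinearMap.ker Λ) := Λ.quotKerEquivRange.symm.finiteDimensional
  exact Module.Finite.of_surjective ((LinearMap.ker Λ).liftQ B.rangeRestrict h1) (by
    rw [← LinearMap.range_eq_top, Submodule.range_liftQ, LinearMap.range_rangeRestrict])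

lemma exists_dual_vec {D ι : Type*} [AddCommGroup D] [Module ℝ D] [Finite ι] [DecidableEq ι]
    {b : ι → D →ₗ[ℝ] ℝ} (h2 : LinearIndependent ℝ b) (j : ι) :
    ∃ e : D, ∀ i, b i e = if i = j then 1 else 0 := by
  have h4 : ¬ ⨅ i : {i // i ≠ j}, LinearMap.ker (b i) ≤ LinearMap.ker (b j) := fun h5 => by
    refine h2.notMem_span_image (s := {i | i ≠ j}) (x := j) (by simp) ?_
    rw [Set.image_eq_range]
    exact mem_span_of_iInf_ker_le_ker h5
  obtain ⟨e, he, he'⟩ := SetLike.not_le_iff_exists.1 h4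
  refine ⟨(b j e)⁻¹ • e, fun i => ?_⟩
  rw [map_smul, smul_eq_mul]
  split_ifs with hij
  · rw [hij]; exact inv_mul_cancel₀ he'
  · rw [show b i e = 0 from (Submodule.mem_iInf _).1 he ⟨i, hij⟩, mul_zero]

lemma exists_basis_range {K D : Type*} [AddCommGroup K] [Module ℝ K] [AddCommGroup D]
    [Module ℝ D] (B : K →ₗ[ℝ] D) {s : Set (K →ₗ[ℝ] ℝ)} (hs : s.Finite)
    (h : ∀ U, (∀ l ∈ s, l U = 0) → B U = 0) : ∃ (n : ℕ) (k : Fin n → K),
      LinearIndependent ℝ (fun i => B (k i)) ∧ ∀ U, ∃ c : Fin n → ℝ, ∑ i, c i • B (k i) = B U := by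
  have := finite_range B hs h
  let b := Module.finBasis ℝ (LinearMap.range B)
  choose k hk using fun i => LinearMap.mem_range.1 (b i).2
  simp only [← funext_iff] at hk
  refine ⟨_, k, hk ▸ b.linearIndependent.map' (LinearMap.range B).subtype
    (Submodule.ker_subtype _), fun U => ⟨b.repr ⟨B U, B.mem_range_self U⟩, ?_⟩⟩
  have h5 := congrArg (LinearMap.range B).subtype (b.sum_repr ⟨B U, B.mem_range_self U⟩)
  rw [map_sum] at h5
  simp only [congrFun hk]
  exact h5

/-- dual families for a pairing whose left kernel has finite codimension -/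
theorem exists_dual_of_finite {K D : Type*} [AddCommGroup K] [Module ℝ K] [AddCommGroup D]
    [Module ℝ D] (B : K →ₗ[ℝ] Module.Dual ℝ D) {s : Set (K →ₗ[ℝ] ℝ)} (hs : s.Finite)
    (h : ∀ U, (∀ l ∈ s, l U = 0) → B U = 0) :
    ∃ (n : ℕ) (k : Fin n → K) (e : Fin n → D), (∀ i j, B (k i) (e j) = if i = j then 1 else 0) ∧
      ∀ U, (∀ j, B U (e j) = 0) → B U = 0 := by
  obtain ⟨n, k, h1, h2⟩ := exists_basis_range B hs h
  choose e he using exists_dual_vec h1
  refine ⟨n, k, e, fun i j => he j i, fun U hU => ?_⟩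
  obtain ⟨c, hc⟩ := h2 U
  have h6 : ∀ j, c j = 0 := fun j => by
    have h7 := hU j
    rw [← hc, LinearMap.sum_apply] at h7
    simpa [he] using h7
  simp [← hc, h6]

end Vale.Agent.P218KE
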