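import Vale.Agent.P218KE.Mult
import Vale.Agent.P218ND.Brg4
import Vale.Agent.P218OP.End
import Vale.Agent.P218OP.Cyl

/-! Solutions of the linearised equation on a cylindrical end are Jacobi fields. -/

open Set Filter Topology Complex
open scoped ContDiff Matrix

namespace Vale.Agent.P218KE

set_option linter.unusedSectionVars false

open Vale.Agent.P218VA Vale.Agent.P218CO Vale.Agent.P218XI Vale.Agent.P218MP Vale.Agent.P218ND
  Vale.Agent.P272.K.LIN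
open Vale.Agent.P218OP (nx ep ea eb tb ks cylOp zc)
open Vale.Agent.P218EN (pE xf ef)
open Vale.Agent.P218GA (E3 Model far ev_gt ev_far cx grm cx_gram cx_dot mat mat_orth)

/-- the position as a function of the frame and the angular coordinate -/
noncomputable def ang (z : (C3 × C3) × ℂ) : C3 := co z.2 • z.1.1 + si z.2 • z.1.2

lemma cd_ang {z : (C3 × C3) × ℂ} (h : 1 + z.2 ^ 2 ≠ 0) {n : WithTop ℕ∞} :
    ContDiffAt ℂ n ang z := by
  have h1 : ContDiffAt ℂ n (fun y : (C3 × C3) × ℂ => 1 + y.2 ^ 2) z :=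
    contDiffAt_const.add (contDiffAt_snd.pow 2)
  exact (((contDiffAt_const.sub (contDiffAt_snd.pow 2)).div h1 h).smul contDiffAt_fst.fst).add
    (((contDiffAt_const.mul contDiffAt_snd).div h1 h).smul contDiffAt_fst.snd)

lemma ang_eq (F : Frame) (x θ : ℝ) (t : ℂ) :
    ang (((2 * rt x) • F.γ θ, (2 * rt x) • F.n θ), t) = F.X x θ t := by
  simp only [ang, F.X_eq, Frame.u, smul_add, smul_comm (2 * rt x)]

lemma fderiv_ang (F : Frame) (x θ : ℝ) {t : ℂ} (h : 1 + t ^ 2 ≠ 0) (τ : ℂ) :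
    fderiv ℂ ang (((2 * rt x) • F.γ θ, (2 * rt x) • F.n θ), t) (0, τ) = τ • F.Xt x θ t := by
  have h0 := P218OP.hasDerivAt_line ((cd_ang (z := (((2 * rt x) • F.γ θ, (2 * rt x) • F.n θ), t))
    h (n := 1)).differentiableAt one_ne_zero) (0, τ)
  have h1 := HasDerivAt.scomp_of_eq (0 : ℝ) h0 (hasDerivAt_id (0 : ℝ)).ofReal_comp rfl
  have h2 : HasDerivAt (fun s : ℝ => t + s * τ) τ 0 := by
    simpa using ((hasDerivAt_id (0 : ℝ)).ofReal_comp.mul_const τ).const_add t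
  have h3 := F.hasDerivAt_Xt (w := x) (θ := θ) h2 (by simpa using h)
  simp only [Prod.smul_mk, smul_zero, Prod.mk_add_mk, add_zero, ang_eq, smul_eq_mul,
    Function.comp_def, id] at h1
  simpa using h1.unique h3

variable {S : Set E3} {w : E3 → ℝ} {δ C : ℝ} {ι κ M : Type} [TopologicalSpace M]
  [ChartedSpace E2 M] (m : Model S w δ C ι κ M) {p : ℝ × ℝ}

lemma ep_sq (j : ι ⊕ κ) (hp : m.w0 < p.1) : gram (ea m j p) (eb m j p) = (ep m j p : ℂ) ^ 2 := by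
  rw [gram_eq, P218OP.cross_eq m j hp, smul_dotProduct, dotProduct_smul, cx_dot,
    real_inner_self_eq_norm_sq, m.norm_nu (Y_reg m j hp)]
  simp [sq]

lemma cd_rt (hp : m.w0 < p.1) : ContDiffAt ℝ ∞ (fun q : ℝ × ℝ => 2 * rt q.1) p :=
  contDiffAt_const.mul ((contDiffAt_rt (pos_of_lt m hp)).comp p contDiffAt_fst)

lemma cd_Xt (j : ι ⊕ κ) (hp : m.w0 < p.1) :
    ContDiffAt ℝ ∞ (fun q : ℝ × ℝ => (P218OP.fq m j).Xt q.1 q.2 (tb m j q)) p := by
  have h1 := P218OP.cd_tbc m j hp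
  have h2 := one_add_sq_ne (tb m j p)
  have h3 : ContDiffAt ℝ ∞ (fun q => 1 + (tb m j q : ℂ) ^ 2) p := contDiffAt_const.add (h1.pow 2)
  have h4 := h3.inv h2
  simp only [P218OP.Xt_eq, Frame.v, co, si, d1, div_eq_mul_inv]
  exact contDiffAt_csmul ((cd_rt m hp).mul (contDiffAt_const.mul h4))
    ((contDiffAt_csmul ((contDiffAt_const.sub (h1.pow 2)).mul h4)
      ((P218OP.fq m j).n_sm.contDiffAt.comp p contDiffAt_snd)).sub
      (contDiffAt_csmul ((contDiffAt_const.mul h1).mul h4)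
      ((P218OP.fq m j).γ_sm.contDiffAt.comp p contDiffAt_snd)))

lemma hasDerivAt_ang {g : ℝ × ℝ → (C3 × C3) × ℂ} (hg : ContDiffAt ℝ 2 g p)
    (h0 : 1 + (g p).2 ^ 2 ≠ 0) {τ : ℝ × ℝ → ℂ} (hτ : ContDiffAt ℝ 2 τ p) :
    HasDerivAt (fun t : ℂ => PPj (pj (fun q => ang ((g q).1, (g q).2 + t * τ q)) p))
      (dPPj (pj (fun q => ang (g q)) p) (pj (fun q => fderiv ℂ ang (g q) (0, τ q)) p)) 0 := by
  have hh : ContDiffAt ℝ 2 (fun q : ℝ × ℝ => ((0 : C3 × C3), τ q)) p := contDiffAt_const.prodMk hτ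
  have h1 := hasDerivAt_PPj (P218OP.hasDerivAt_cj (d1 := ((1, 0) : ℝ × ℝ)) (d2 := (0, 1))
    (cd_ang h0) hg hh)
  rw [zero_smul, add_zero, ← cj_comp (cd_ang h0) hg] at h1
  refine h1.congr_of_eventuallyEq ?_
  have h2 : ContinuousAt (fun t : ℂ => 1 + ((g p).2 + t * τ p) ^ 2) 0 := by fun_prop
  filter_upwards [h2.eventually_ne (by simpa using h0)] with t ht
  have h3 : ContDiffAt ℝ 2 (fun q : ℝ × ℝ => t • ((0 : C3 × C3), τ q)) p := hh.const_smul t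
  have h4 : ∀ q, g q + t • ((0 : C3 × C3), τ q) = ((g q).1, (g q).2 + t * τ q) := fun q => by
    simp [Prod.ext_iff]
  rw [← cj_csmul t hh, ← cj_add hg h3, ← cj_comp (cd_ang (by rwa [h4])) (hg.add h3)]
  simp only [h4]

/-- the linearisation of the shrinker operator in the angular coordinate -/
lemma hasDerivAt_PPF (j : ι ⊕ κ) (hp : m.w0 < p.1) {τ : ℝ × ℝ → ℂ} (hτ : ContDiffAt ℝ 2 τ p) :
    HasDerivAt (fun t : ℂ => PPF (1, 0) (0, 1)
      (fun q : ℝ × ℝ => (P218OP.fq m j).X q.1 q.2 (tb m j q + t * τ q)) p)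
      (dPPj (pj (fun q => cx (m.F ((ends m).Y j q))) p)
        (pj (fun q => τ q • (P218OP.fq m j).Xt q.1 q.2 (tb m j q)) p)) 0 := by
  have h1 := hasDerivAt_ang (g := fun q : ℝ × ℝ => (((2 * rt q.1) • (P218OP.fq m j).γ q.2,
    (2 * rt q.1) • (P218OP.fq m j).n q.2), (tb m j q : ℂ)))
    ((((contDiffAt_csmul (cd_rt m hp) ((P218OP.fq m j).γ_sm.contDiffAt.comp p contDiffAt_snd)).prodMk
      (contDiffAt_csmul (cd_rt m hp) ((P218OP.fq m j).n_sm.contDiffAt.comp p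
        contDiffAt_snd))).prodMk (P218OP.cd_tbc m j hp)).of_le P218VA.two_le_inf)
    (one_add_sq_ne _) hτ
  simp only [ang_eq, fderiv_ang _ _ _ (one_add_sq_ne _)] at h1
  rw [pj, cj_congr (P218OP.F_Y_ev m j hp)]
  exact h1

variable [Finite ι] [Finite κ] [T2Space M] [RSm E2 M]

/-- the linearisation is the stability operator of the normal part -/
theorem LMc_end (j : ι ⊕ κ) (hp : m.w0 < p.1) (he : ep m j p ≠ 0) {τ : ℝ × ℝ → ℂ}
    (hτ : ContDiffAt ℝ 2 τ p) {u : M → ℂ} (hu : ∀ᶠ q in 𝓝 p, u ((ends m).Y j q) = τ q * nx m j q)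
    {D : ℂ} (hD : HasDerivAt (fun t : ℂ => PPF (1, 0) (0, 1)
      (fun q : ℝ × ℝ => (P218OP.fq m j).X q.1 q.2 (tb m j q + t * τ q)) p) D 0) :
    CkAt 2 u ((ends m).Y j p) ∧ D = (ep m j p : ℂ) ^ 3 * LMc m u ((ends m).Y j p) := by
  have hV := contDiffAt_csmul hτ ((cd_Xt m j hp).of_le P218VA.two_le_inf)
  have h1 : ∀ᶠ q in 𝓝 p, u ((ends m).Y j q) = cx (m.nu ((ends m).Y j q)) ⬝ᵥ
      τ q • (P218OP.fq m j).Xt q.1 q.2 (tb m j q) :=
    hu.mono fun q hq => by rw [hq, dotProduct_smul, P218OP.nx_eq, smul_eq_mul]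
  have h2 : CkAt 2 u ((ends m).Y j p) := Ends.ckAt_Y P218VA.two_le_inf hp
    ((contDiffAt_dot ((P218OP.cd_nuY m j hp).of_le P218VA.two_le_inf) hV).congr_of_eventuallyEq h1)
  have h3 : ((grm (pd (fun z => m.F ((ends m).Y j z)) (1, 0) p)
      (pd (fun z => m.F ((ends m).Y j z)) (0, 1) p) : ℝ) : ℂ) = (ep m j p : ℂ) ^ 2 := by
    rw [← cx_gram, (P218OP.cx_pd m j hp).1, (P218OP.cx_pd m j hp).2, ep_sq m j hp]
  have he' : (ep m j p : ℂ) ≠ 0 := ofReal_ne_zero.2 he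
  have h4 := dPPj_param m (Y_reg m j hp) (Ends.continuousAt_Y j hp)
    ((P218OP.cd_FY m j hp).of_le P218VA.two_le_inf) h2 hV h1 (d1 := (1, 0)) (d2 := (0, 1))
    (ofReal_ne_zero.1 (h3 ▸ pow_ne_zero 2 he'))
  refine ⟨h2, mul_left_cancel₀ he' ?_⟩
  rw [hD.unique (hasDerivAt_PPF m j hp hτ)]
  refine h4.trans ?_
  rw [h3]
  ring

omit [Finite ι] [Finite κ] [T2Space M] [RSm E2 M] in
lemma tb_cyl (i : ι) (q : ℝ × ℝ) : (tb m (.inl i) q : ℂ) = kap q.1 * m.U i q := by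
  simp [tb, ks, P218CO.ub, kap]

lemma isCyl_fr (i : ι) : IsCyl (P218OP.fq m (.inl i)) := isCyl_cylF.rot (mat_orth _)

lemma cd_U (i : ι) (hp : m.w0 < p.1) : ContDiffAt ℝ 2 (fun q => (m.U i q : ℂ)) p :=
  ofRealCLM.contDiff.contDiffAt.comp p ((m.U_smooth i p hp).of_le P218VA.two_le_inf)

lemma pj_U (i : ι) (hp : m.w0 < p.1) :
    pj (fun q => (m.U i q : ℂ)) p = jconst 1 + P218OP.tj (TU m i) p := by
  rw [← (P218OP.rtow_cyl m i).pj_eq hp, ← cj_const (d1 := ((1, 0) : ℝ × ℝ)) (d2 := (0, 1)) (x := p),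
    ← cj_add contDiffAt_const (((P218OP.rtow_cyl m i).sm 0 0 p hp).of_le P218VA.two_le_inf)]
  simp only [TU_zero]

lemma PPF_cylOp (i : ι) (hp : m.w0 < p.1) {μ : ℝ × ℝ → ℂ} (hμ : ContDiffAt ℝ 2 μ p) {t : ℂ}
    (hl : 1 + ef 0 p.1 * (m.U i p + t * μ p) ^ 2 ≠ 0) :
    PPF (1, 0) (0, 1) (fun q : ℝ × ℝ => (P218OP.fq m (.inl i)).X q.1 q.2
      (tb m (.inl i) q + t * (kap q.1 * μ q))) p = (P218OP.fq m (.inl i)).sg p.2 *
        (-16 * ef 0 p.1 * (cylOp m i).E p (t • pj μ p) /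
          (rt p.1 * (1 + ef 0 p.1 * (m.U i p + t * μ p) ^ 2) ^ 6)) := by
  have h1 : ContDiffAt ℝ 2 (fun q => t • μ q) p := hμ.const_smul t
  have h2 := (isCyl_fr m i).PPF_Z ((cd_U m i hp).add h1) (pos_of_lt m hp) hl
  have h3 := cj_add (d1 := ((1, 0) : ℝ × ℝ)) (d2 := (0, 1)) (cd_U m i hp) h1
  rw [cj_csmul t hμ, show cj _ _ (fun q => (m.U i q : ℂ)) p = _ from pj_U m i hp] at h3
  simp only [cj, Prod.ext_iff, jconst, P218OP.tj, Prod.fst_add, Prod.snd_add, zero_add] at h3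
  obtain ⟨⟨a0, a1, a2⟩, a3, a4, a5⟩ := h3
  rw [a1, a2, a3, a4, a5, a0, add_assoc, add_sub_cancel_left, ← add_assoc, ← a0] at h2
  rw [P218OP.cylOp_E]
  simp only [tb_cyl, mul_left_comm t, ← mul_add]
  exact h2

/-- the factor between the unknown function and the normal part -/
noncomputable def fac (i : ι) (p : ℝ × ℝ) : ℝ := ks (κ := κ) (.inl i) p.1 * nx m (.inl i) p

lemma per_fac (i : ι) : Per (fac m i) := fun x θ => by
  simp only [fac, nx, Ends.per_Y _ x θ, P218OP.per_tb m _ x θ, Frame.Xt, Frame.R_per]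

/-- **The link**: solutions of the linearised equation give Jacobi fields. -/
theorem LMc_cyl (i : ι) (hp : m.w0 < p.1) (he : ep m (.inl i) p ≠ 0) {μ : ℝ × ℝ → ℂ}
    (hμ : ContDiffAt ℝ 2 μ p) {u : M → ℂ}
    (hu : ∀ᶠ q in 𝓝 p, u ((ends m).Y (.inl i) q) = fac m i q * μ q)
    (h : HasDerivAt (fun t : ℂ => (cylOp m i).E p (t • pj μ p)) 0 0) :
    CkAt 2 u ((ends m).Y (.inl i) p) ∧ LMc m u ((ends m).Y (.inl i) p) = 0 := by
  have h0 := pos_of_lt m hp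
  have hl := lam_ne h0.le (m.U i p)
  have h1 : HasDerivAt (fun t : ℂ => rt p.1 * (1 + ef 0 p.1 * (m.U i p + t * μ p) ^ 2) ^ 6) _ 0 :=
    DifferentiableAt.hasDerivAt (by fun_prop)
  have h2 : (cylOp m i).E p ((0 : ℂ) • pj μ p) = 0 := by
    simpa [P218OP.cylOp_E] using pE_cyl m i hp
  have h3 := ((h.const_mul (-16 * ef 0 p.1)).div h1
    (mul_ne_zero (rt_ne h0) (pow_ne_zero _ (by simpa using hl)))).const_mul
    ((P218OP.fq m (.inl i)).sg p.2)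
  simp only [h2, mul_zero, zero_mul, sub_zero, zero_div] at h3
  have h4 : ContinuousAt (fun t : ℂ => 1 + ef 0 p.1 * (m.U i p + t * μ p) ^ 2) 0 := by fun_prop
  obtain ⟨a, b⟩ := LMc_end m (.inl i) hp he (τ := fun q => kap q.1 * μ q) (u := u)
    ((((contDiffAt_kap h0).of_le P218VA.two_le_inf).comp p contDiffAt_fst).mul hμ)
    (hu.mono fun q hq => by rw [hq]; simp [fac, ks, kap]; ring) (h3.congr_of_eventuallyEq
      ((h4.eventually_ne (by simpa using hl)).mono fun t ht => PPF_cylOp m i hp hμ ht))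
  exact ⟨a, (mul_eq_zero.1 b.symm).resolve_left (pow_ne_zero _ (ofReal_ne_zero.2 he))⟩

lemma fac_sq (i : ι) (hp : m.w0 < p.1) : (fac m i p : ℂ) ^ 2 *
    ((1 + ef 0 p.1 * (m.U i p : ℂ) ^ 2) ^ 2 * ((m.U i p : ℂ) ^ 2 + TU m i 0 1 p ^ 2) +
      xf p.1 * (m.U i p : ℂ) ^ 2 * (2 * p.1 * TU m i 1 0 p - m.U i p) ^ 2)
      = 2 * (m.U i p : ℂ) ^ 2 := by
  have h0 := pos_of_lt m hp
  have hl := lam_ne h0.le (m.U i p)
  have h1 := Frame.pd_kap1 ((cd_U m i hp).of_le one_le_two) h0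
  have h2 := pj_U m i hp
  simp only [cj, Prod.ext_iff, jconst, P218OP.tj, Prod.fst_add, Prod.snd_add, zero_add] at h2
  have a : ea m (.inl i) p = (P218OP.fq m (.inl i)).Za p.1 p.2 (m.U i p) (TU m i 1 0 p) := by
    simp only [ea, tb_cyl, h1.1, h2.1.2.1, Frame.Za]
  have b : eb m (.inl i) p = (P218OP.fq m (.inl i)).Zb p.1 p.2 (m.U i p) (TU m i 0 1 p) := by
    simp only [eb, tb_cyl, h1.2, h2.1.2.2, Frame.Zb]
  have h3 := (isCyl_fr m i).gram_Z h0 p.2 hl (TU m i 1 0 p) (TU m i 0 1 p)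
  have h4 := (isCyl_fr m i).ZU_triple h0 p.2 hl (TU m i 1 0 p) (TU m i 0 1 p)
  rw [← a, ← b, ep_sq m _ hp, eq_div_iff (pow_ne_zero _ hl)] at h3
  rw [← a, ← b, P218OP.cross_eq m _ hp, Frame.ZU, ← tb_cyl, smul_dotProduct, dotProduct_smul,
    P218OP.nx_eq, smul_eq_mul, smul_eq_mul, ← neg_div, ← mul_div_assoc,
    eq_div_iff (pow_ne_zero _ hl)] at h4
  have h5 : (fac m i p : ℂ) = kap p.1 * nx m (.inl i) p := by simp [fac, ks, kap]
  have h6 : 8 * p.1 * ef 0 p.1 = 1 := by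
    have := ofReal_ne_zero.2 h0.ne'
    simp only [ef, zero_mul, sub_zero]
    field_simp
  have h7 : ef 0 p.1 ≠ 0 := fun h => by simp [h] at h6
  refine mul_left_cancel₀ (mul_ne_zero (by norm_num : (16 : ℂ) ≠ 0) h7) ?_
  rw [← h5] at h4
  have h8 := congrArg (· ^ 2) h4
  simp only [mul_pow, Frame.sg_sq, neg_sq, rt_sq h0.le] at h8
  linear_combination h8 - (fac m i p : ℂ) ^ 2 * h3 + 32 * ef 0 p.1 * (m.U i p : ℂ) ^ 2 * h6

lemma tendsto_fac (i : ι) : Tendsto (fun p => fac m i p ^ 2) far (𝓝 2) := by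
  have hΦ : ContinuousAt (fun z : (ℂ × ℂ) × J2 ℂ => 2 * (1 + z.2.1.1) ^ 2 /
      ((1 + z.1.2 * (1 + z.2.1.1) ^ 2) ^ 2 * ((1 + z.2.1.1) ^ 2 + z.2.1.2.2 ^ 2) +
        z.1.1 * (1 + z.2.1.1) ^ 2 * (z.2.1.2.1 - (1 + z.2.1.1)) ^ 2)) 0 :=
    ContinuousAt.div (by fun_prop) (by fun_prop) (by simp)
  have hD : ContinuousAt (fun z : (ℂ × ℂ) × J2 ℂ =>
      (1 + z.1.2 * (1 + z.2.1.1) ^ 2) ^ 2 * ((1 + z.2.1.1) ^ 2 + z.2.1.2.2 ^ 2) +
        z.1.1 * (1 + z.2.1.1) ^ 2 * (z.2.1.2.1 - (1 + z.2.1.1)) ^ 2) 0 := by fun_prop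
  have h1 := (continuous_re.tendsto _).comp (hΦ.tendsto.comp (P218OP.tendsto_zc m i))
  simp only [Prod.fst_zero, Prod.snd_zero, add_zero, one_pow, mul_one, zero_mul, ne_eq,
    OfNat.ofNat_ne_zero, not_false_eq_true, zero_pow, div_one, re_ofNat] at h1
  refine h1.congr' ?_
  filter_upwards [(P218OP.tendsto_zc m i).eventually (hD.eventually_ne (y := 0) (by simp)),
    ev_gt m.w0] with p a b
  have h2 := fac_sq m i b
  simp only [zc, P218OP.n2, P218OP.n1, P218OP.tj, ContinuousLinearMap.coe_prodMap', Prod.map,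
    ContinuousLinearMap.id_apply, smul_apply, smul_eq_mul, TU_zero,
    Function.comp] at a ⊢
  rw [← (eq_div_iff a).2 h2, ← ofReal_pow, ofReal_re]

lemma ev_fac (i : ι) : ∀ᶠ p in far, 1 ≤ |fac m i p| ∧ |fac m i p| ≤ 2 := by
  filter_upwards [(tendsto_fac m i).eventually (Ioo_mem_nhds one_lt_two (by norm_num : (2 : ℝ) < 4))]
    with p hp
  rw [← sq_abs] at hp
  constructor <;> nlinarith [hp.1, hp.2, abs_nonneg (fac m i p)]

variable [CompactSpace M] [MeasurableSpace M] [BorelSpace M] [Fintype ι]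

/-- the multipliers from linearly growing solutions of the linearised equations on the ends -/
theorem exists_mult_of (h : ∀ i, ∃ μ : ℝ × ℝ → ℂ, Per μ ∧ ∀ᶠ p in far, ContDiffAt ℝ 2 μ p ∧
    HasDerivAt (fun t : ℂ => (cylOp m i).E p (t • pj μ p)) 0 0 ∧ ‖μ p + p.1 / 2‖ ≤ p.1 / 4) :
    ∃ (n : ℕ) (s : ℝ) (e : Fin n ⊕ ι → E3 → ℝ), Mult m s e := by
  choose μ hp hμ using h
  obtain ⟨n, s₀, H⟩ := exists_mult m
  obtain ⟨s, hs⟩ := ev_far.1 ((eventually_all.2 fun i => (hμ i).and ((ev_fac m i).and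
    (P218OP.ev_G m (.inl i)))).and (ev_gt m.w0))
  have h1 : ∀ i {q : ℝ × ℝ}, m.w0 < q.1 → (ends m).onEnd (.inl i) (fun q => fac m i q * μ i q)
      ((ends m).Y (.inl i) q) = fac m i q * μ i q := fun i q hq =>
    Ends.onEnd_Y (fun x θ => by simp only [per_fac m i x θ, hp i x θ]) hq
  obtain ⟨e, he⟩ := H (max s s₀) (le_max_right _ _)
    (fun i x => ((ends m).onEnd (.inl i) (fun q => fac m i q * μ i q) x).re) (1 / 4) (3 / 2)
    (by norm_num) fun i p hp => by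
      obtain ⟨a, b⟩ := hs p ((le_max_left _ _).trans hp.le)
      obtain ⟨⟨a1, a2, a3⟩, ⟨a4, a5⟩, a6⟩ := a i
      obtain ⟨c1, c2⟩ := LMc_cyl m i b (P218OP.ep_nx_ne m _ b a6).1 a1
        ((Ends.ev_w0 (𝓔 := ends m) b).mono fun q hq => h1 i hq) a2
      have c3 := abs_le.1 ((abs_re_le_norm _).trans a3)
      simp only [add_re, div_ofNat_re, ofReal_re] at c3
      have c4 : |(μ i p).re| = -(μ i p).re := abs_of_nonpos (by linarith [pos_of_lt m b])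
      refine ⟨ckAt_re c1, by rw [← LMc_re, c2, zero_re], ?_⟩
      rw [h1 i b, re_ofReal_mul, abs_mul, c4]
      constructor <;> nlinarith [pos_of_lt m b]
  exact ⟨n, _, e, he⟩

end Vale.Agent.P218KE
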