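import Vale.Agent.P218KE.Pull

/-! The existence of the multipliers. -/

open MeasureTheory Set Filter Topology Metric
open scoped RealInnerProductSpace ContDiff

namespace Vale.Agent.P218KE

set_option linter.unusedSectionVars false

open Vale.Agent.P218GA (E3 Model pol inner_grad cH_pos')
open Vale.Agent.P218.H63 (stab)
open Vale.Agent.P218ND Vale.Agent.P218VA Vale.Agent.P218CO Vale.Agent.P272.K.LIN

/-- the cutoff between the levels `s + 3 / 2` and `s + 2` -/
noncomputable def eta (s : ℝ) (z : E3) : ℝ := 1 - st (2 * s + 3) (‖z‖ ^ 2 / 2)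

lemma contDiff_eta (s : ℝ) {n : ℕ∞} : ContDiff ℝ n (eta s) :=
  contDiff_const.sub ((contDiff_st _).comp ((contDiff_norm_sq ℝ).div_const 2))

lemma eta_one {s : ℝ} {z : E3} (h : ‖z‖ ^ 2 ≤ 4 * s + 6) : eta s z = 1 := by
  rw [eta, st_zero (by linarith), sub_zero]

lemma eta_zero {s : ℝ} {z : E3} (h : 4 * s + 8 ≤ ‖z‖ ^ 2) : eta s z = 0 := by
  rw [eta, st_one (by linarith), sub_self]

lemma abs_one_sub_eta (s : ℝ) (z : E3) : |1 - eta s z| ≤ 1 := by
  rw [eta, sub_sub_cancel, abs_of_nonneg (st_nonneg _ _)]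
  exact st_le_one _ _

lemma compact_of {f : E3 → ℝ} {r : ℝ} (h : ∀ z, r ≤ ‖z‖ ^ 2 → f z = 0) : HasCompactSupport f :=
  HasCompactSupport.intro (isCompact_closedBall 0 (|r| + 1)) fun z hz => h z (by
    have := not_le.1 fun a => hz (mem_closedBall_zero_iff.2 a)
    nlinarith [le_abs_self r, abs_nonneg r])

/-- a continuous function which vanishes outside an open ball vanishes on the sphere -/
lemma zero_of_lt {f : E3 → ℝ} (hf : Continuous f) {r : ℝ} (hr : 0 < r)
    (h : ∀ z, r < ‖z‖ ^ 2 → f z = 0) {z : E3} (hz : r ≤ ‖z‖ ^ 2) : f z = 0 := by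
  have h1 : Tendsto (fun t : ℝ => f (t • z)) (𝓝[>] 1) (𝓝 (f ((1 : ℝ) • z))) :=
    ((hf.comp (continuous_id.smul continuous_const)).tendsto 1).mono_left nhdsWithin_le_nhds
  rw [one_smul] at h1
  refine tendsto_nhds_unique h1 (tendsto_const_nhds.congr' ?_)
  filter_upwards [self_mem_nhdsWithin] with t ht
  have h2 : (1 : ℝ) < t := ht
  refine (h _ ?_).symm
  rw [norm_smul, mul_pow, Real.norm_eq_abs, sq_abs]
  nlinarith [mul_pos (show 0 < t ^ 2 - 1 by nlinarith) (hr.trans_le hz)]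

variable {S : Set E3} {w : E3 → ℝ} {δ C : ℝ} {ι κ M : Type} [TopologicalSpace M]
  [ChartedSpace E2 M] (m : Model S w δ C ι κ M) [Finite ι] [Finite κ] [T2Space M]
  [RSm E2 M] [CompactSpace M] [MeasurableSpace M] [BorelSpace M] {x : M} {s : ℝ}

lemma ev_amb {U : E3 → ℝ} (hx : x ∈ m.reg) (h : ∀ᶠ z in 𝓝 x, U (m.F z) = 0) :
    ∀ᶠ p in 𝓝 (m.F x), w p = 0 → U p = 0 := by
  obtain ⟨ζ, -, -, h1⟩ := exists_zeta m (n := 1) one_ne_zero one_le_inf hx
    (CkFn.ckAt (ckFn_const (0 : ℝ)) x)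
  filter_upwards [h1 U h, h1 0 (Eventually.of_forall fun _ => rfl)] with p a b c
  rw [← a c, b c, Pi.zero_apply]

lemma cut_ev {j j' : ι ⊕ κ} (h : j ≠ j') {p : ℝ × ℝ} (hp : m.w0 < p.1) (a : ℝ) :
    ∀ᶠ z in 𝓝 ((ends m).Y j p), (ends m).cut j' a z = 0 :=
  (Ends.ev_Y j hp).2 ((Ends.ev_w0 hp).mono fun _ hq => Ends.cut_of_notMem (Ends.Y_notMem h hq))

/-- the ambient extension of a Jacobi field on one end -/
lemma exists_zeta_end (hs : m.w0 ≤ s) (j : ι ⊕ κ) {y : M → ℝ} (hy : ∀ p : ℝ × ℝ, s < p.1 →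
    CkAt 2 y ((ends m).Y j p) ∧ LM m y ((ends m).Y j p) = 0) :
    ∃ ζ : E3 → ℝ, ContDiff ℝ 2 ζ ∧ (∀ x ∈ m.reg, ζ (m.F x) = (ends m).cut j (s + 1 / 4) x * y x) ∧
      ∀ x ∈ m.reg, 4 * s + 6 ≤ ‖m.F x‖ ^ 2 → stab w ζ (m.F x) = 0 := by
  have ha : (ends m).w0 < s + 1 / 4 := by
    change m.w0 < _
    linarith
  have h0 : ∀ {x}, (∀ᶠ z in 𝓝 x, (ends m).cut j (s + 1 / 4) z = 0) →
      (fun z => (ends m).cut j (s + 1 / 4) z * y z) =ᶠ[𝓝 x] fun _ => 0 * 0 := fun h =>
    h.mono fun z hz => by simp only [hz, zero_mul]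
  have h1 : ∀ x ∈ m.reg, CkAt 2 (fun z => (ends m).cut j (s + 1 / 4) z * y z) x := by
    intro x hx
    by_cases hb : x ∈ (ends m).below (s + 1 / 4)
    · exact (CkFn.ckAt (ckFn_const _) x).congr (h0 (Eventually.mono
        ((Ends.isOpen_below ha).mem_nhds hb) fun z hz => Ends.cut_below hz j))
    have h2 := not_lt.1 fun h => hb ((below_iff m ha hx).2 h)
    obtain ⟨j', p, hp, rfl⟩ := exists_Y m hx (by linarith)
    rcases eq_or_ne j' j with rfl | hj
    · rw [norm_F_Y m j' hp] at h2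
      exact fun e he hxe => ((CkFn.ckAt (Ends.cut_ck j' ha) _).of_le P218VA.two_le_inf e he hxe).mul
        ((hy p (by linarith)).1 e he hxe)
    · exact (CkFn.ckAt (ckFn_const _) _).congr (h0 (cut_ev m hj hp _))
  obtain ⟨ζ, h2, h3⟩ := (shr m).exists_global (locSol_amb m h1)
  refine ⟨ζ, h2, fun x hx => by rw [(h3 _ (m.w_F hx)).1, amb_F m _ hx], fun x hx h4 => ?_⟩
  rw [(h3 _ (m.w_F hx)).2, amb_F m _ hx]
  obtain ⟨j', p, hp, rfl⟩ := exists_Y m hx (by linarith)
  rw [norm_F_Y m j' hp] at h4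
  rcases eq_or_ne j' j with rfl | hj
  · rw [← (hy p (by linarith)).2]
    refine LM_congr m ((Ends.ev_Y j' hp).2 ?_)
    filter_upwards [Ends.ev_w0 (𝓔 := ends m) hp, continuous_fst.continuousAt.eventually
      (eventually_gt_nhds (show s + 1 / 4 + 1 < p.1 by linarith))] with q a b
    rw [Ends.cut_Y a, st_one b.le, one_mul]
  · rw [LM_congr m (h0 (cut_ev m hj hp _)), LM_cmul m hx 0 (CkFn.ckAt (ckFn_const _) _), zero_mul]

/-- the cutoff is not constant along an end -/
lemma exists_tv_ne (hs : m.w0 ≤ s) (j : ι ⊕ κ) :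
    ∃ t, s + 3 / 2 < t ∧ tv w (eta s) (m.F ((ends m).Y j (t, 0))) ≠ 0 := by
  by_contra h
  push Not at h
  have hX : ∀ t, m.w0 < t → DifferentiableAt ℝ (fun t : ℝ => m.F ((ends m).Y j (t, 0))) t :=
    fun t ht => DifferentiableAt.comp (g := fun q => m.F ((ends m).Y j q)) (f := fun r => (r, 0)) t
      ((Ends.contDiffAt_Y (𝓔 := ends m) (p := (t, 0)) ht
        (m.ckAt_F (Y_reg m j ht))).differentiableAt (by simp))
      (differentiableAt_id.prodMk (differentiableAt_const _))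
  have he : Differentiable ℝ (eta s) := (contDiff_eta s (n := 1)).differentiable one_ne_zero
  obtain ⟨t, ht, h1⟩ := exists_hasDerivAt_eq_slope (fun t => eta s (m.F ((ends m).Y j (t, 0))))
    (fun _ => 0) (show s + 3 / 2 < s + 2 by linarith) (fun t ht => ((he _).comp t
      (hX t (by linarith [ht.1]))).continuousAt.continuousWithinAt) fun t ht => by
      have h2 : m.w0 < t := by linarith [ht.1]
      have h3 := (m.w_smooth.differentiable (by simp) _).hasFDerivAt.comp_hasDerivAt t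
        (hX t h2).hasDerivAt
      have h4 := h3.unique ((hasDerivAt_const t (0 : ℝ)).congr_of_eventuallyEq
        ((eventually_gt_nhds h2).mono fun r hr => m.w_F (Y_reg m j (p := (r, 0)) hr)))
      have h5 := (he _).hasFDerivAt.comp_hasDerivAt t (hX t h2).hasDerivAt
      rwa [← inner_grad, sub_eq_zero.1 (h t ht.1), inner_smul_left, inner_grad w, h4,
        mul_zero] at h5
  rw [eta_zero, eta_one] at h1
  · norm_num at h1
  · rw [norm_F_Y m j (p := (s + 3 / 2, 0)) (by linarith)]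
    linarith
  · rw [norm_F_Y m j (p := (s + 2, 0)) (by linarith)]
    linarith

/-- **The multipliers.** -/
theorem exists_mult [Fintype ι] : ∃ (n : ℕ) (s₀ : ℝ), ∀ s, s₀ ≤ s → ∀ (y : ι → M → ℝ) (c K : ℝ),
    0 < c → (∀ i (p : ℝ × ℝ), s < p.1 → CkAt 2 (y i) ((ends m).Y (.inl i) p) ∧
      LM m (y i) ((ends m).Y (.inl i) p) = 0 ∧ c * p.1 ≤ |y i ((ends m).Y (.inl i) p)| ∧
      |y i ((ends m).Y (.inl i) p)| ≤ K * p.1) →
    ∃ e : Fin n ⊕ ι → E3 → ℝ, Mult m (s + 2) e := by
  have h := shr m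
  have := h.finite
  obtain ⟨n, e, k, e1, k1, hd, hz⟩ := exists_dual h
  obtain ⟨R, hR⟩ : ∃ R, ∀ i z, R ≤ ‖z‖ ^ 2 → e i z = 0 := by
    obtain ⟨R, hR⟩ := (isCompact_iUnion fun i => (e1 i).2.isCompact).isBounded.subset_ball 0
    refine ⟨R ^ 2, fun i z hz => image_eq_zero_of_notMem_tsupport fun a => ?_⟩
    have := mem_ball_zero_iff.1 (hR (mem_iUnion.2 ⟨i, a⟩))
    nlinarith [norm_nonneg z]
  refine ⟨n, max m.w0 (R / 4), fun s hs y c K hc hy => ?_⟩
  have s1 : m.w0 ≤ s := (le_max_left _ _).trans hs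
  have s2 : R / 4 ≤ s := (le_max_right _ _).trans hs
  have s3 := m.one_le
  choose ζ z1 z2 z3 using fun i => exists_zeta_end m s1 (.inl i) fun p hp =>
    ⟨(hy i p hp).1, (hy i p hp).2.1⟩
  have w2 : ContDiff ℝ 2 w := h.tube.smooth
  have η2 : ContDiff ℝ 2 (eta s) := contDiff_eta s
  have ηc : HasCompactSupport (eta s) := compact_of fun z => eta_zero
  have f1 : ∀ i, ContDiff ℝ 1 (src w (eta s) (ζ i)) := fun i =>
    contDiff_src w2 (contDiff_eta s) (z1 i)
  have f2 : ∀ i z, 4 * (s + 2) ≤ ‖z‖ ^ 2 → src w (eta s) (ζ i) z = 0 := fun i z =>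
    zero_of_lt (f1 i).continuous (by linarith) fun z hz => src_of_const (c := 0)
      (((continuous_norm.pow 2).continuousAt.eventually (eventually_gt_nhds hz)).mono
        fun z (hz : _ < ‖z‖ ^ 2) => eta_zero (by linarith))
  have f3 : ∀ i, MemLp (src w (eta s) (ζ i)) 2 (ga 2 w) := fun i =>
    (f1 i).continuous.memLp_of_hasCompactSupport (compact_of (f2 i))
  have e2 : ∀ i, MemLp (e i) 2 (ga 2 w) := fun i =>
    (e1 i).1.continuous.memLp_of_hasCompactSupport (e1 i).2
  set β : ι → E3 → ℝ := fun i z => (1 - eta s z) * ζ i z with hβ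
  have b0 : ∀ i z, ‖z‖ ^ 2 ≤ 4 * s + 6 → β i z = 0 := fun i z hz => by simp [hβ, eta_one hz]
  have b1 : ∀ i, ContDiff ℝ 2 (β i) := fun i => (contDiff_const.sub η2).mul (z1 i)
  have b2 : ∀ i, LocSol w (β i) (src w (eta s) (ζ i)) := fun i =>
    (locSol_of_contDiff (b1 i)).congr (fun _ _ => rfl) fun z hz => by
      obtain ⟨x, hx, rfl⟩ := exists_pre m hz
      rw [hβ, stab_cut η2 (z1 i) (m.norm_nu hx)]
      rcases le_total (‖m.F x‖ ^ 2) (4 * s + 6) with a | a
      · simp [eta_one a]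
      · simp [z3 i x hx a]
  have z4 : ∀ i j (p : ℝ × ℝ), m.w0 < p.1 → j ≠ .inl i →
      ∀ᶠ z in 𝓝 ((ends m).Y j p), ζ i (m.F z) = 0 := fun i j p hp hj => by
    filter_upwards [cut_ev m hj hp (s + 1 / 4), ev_reg m (Y_reg m j hp)] with z a b
    rw [z2 i z b, a, zero_mul]
  have z5 : ∀ i (p : ℝ × ℝ), s + 3 / 2 ≤ p.1 →
      ζ i (m.F ((ends m).Y (.inl i) p)) = y i ((ends m).Y (.inl i) p) := fun i p hp => by
    have a : m.w0 < p.1 := by linarith
    rw [z2 i _ (Y_reg m _ a), Ends.cut_Y a, st_one (by linarith), one_mul]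
  have b3 : ∀ i, MemLp (β i) 2 (ga 2 w) := fun i =>
    h.memLp_of_le (b1 i).continuous.aestronglyMeasurable (K := |K|) (q := 2) fun z hz => by
      obtain ⟨x, hx, rfl⟩ := exists_pre m hz
      rcases le_total (‖m.F x‖ ^ 2) (4 * s + 6) with a | a
      · rw [b0 i _ a, abs_zero]
        positivity
      obtain ⟨j, p, hp, rfl⟩ := exists_Y m hx (by linarith)
      have b := norm_F_Y m j hp
      rcases eq_or_ne j (.inl i) with rfl | hj
      · simp only [hβ, abs_mul]
        rw [z5 i p (by linarith)]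
        refine (mul_le_of_le_one_left (abs_nonneg _) (abs_one_sub_eta _ _)).trans
          ((hy i p (by linarith)).2.2.2.trans (mul_le_mul (le_abs_self K) ?_ (by linarith)
            (abs_nonneg K)))
        nlinarith [norm_nonneg (m.F ((ends m).Y (.inl i) p))]
      · simp only [hβ, (z4 i j p hp hj).self_of_nhds, mul_zero, abs_zero]
        positivity
  have key : ∀ u l, MSol m (Sum.elim e fun i => src w (eta s) (ζ i)) u l → MemLp u 2 m.mu0 →
      (∀ i, ∫ x, pull m (e i) x * u x ∂m.mu0 = 0) →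
      (∀ i, l (.inl i) = 0) ∧ ∀ x ∈ m.reg, u x = ∑ i, l (.inr i) * β i (m.F x) := by
    intro u l hu u2 h0
    obtain ⟨a, b⟩ := eq_sum h e2 k1 hd hz b2 b3 (fun i j z => by
        rcases le_total (‖z‖ ^ 2) (4 * s + 6) with a | a
        · rw [b0 i z a, zero_mul]
        · rw [hR j z (by linarith), mul_zero])
      (U := amb m u) (a := fun i => l (.inl i)) (b := fun i => l (.inr i))
      (locSol_of_LM m (fun x hx => (hu x hx).1) (fun x hx => amb_F m u hx) fun x hx => by
        simp [(hu x hx).2, pull_reg m _ hx]) ((memLp_amb m u).2 u2) fun j => by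
        rw [integral_ga_eq m, mul_eq_zero_iff_left (cH_pos' 2).ne', ← h0 j]
        exact integral_congr_ae (m.ae_reg.mono fun x hx => by
          simp only [amb_F m u hx, pull_reg m _ hx, mul_comm])
    refine ⟨congrFun a, fun x hx => sub_eq_zero.1 (eq_zero_of_ae m
      (u := fun x => u x - ∑ i, l (.inr i) * β i (m.F x)) (hu.cont.sub (continuousOn_finsetSum _
        fun i _ => continuousOn_const.mul ((b1 i).continuous.comp_continuousOn m.rimm.cont)))
      ?_ hx)⟩
    filter_upwards [m.ae_reg, ae_mu0 m (g := fun z => amb m u z - ∑ i, l (.inr i) * β i z)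
      (((memLp_amb m u).2 u2).sub (memLp_finsetSum _ fun i _ => (b3 i).const_mul _))
      (b.mono fun z hz => sub_eq_zero.2 hz)] with x a b
    rwa [amb_F m u a] at b
  have fin : ∀ (u : M → ℝ) (l : Fin n ⊕ ι → ℝ), (∀ i, l (.inl i) = 0) →
      (∀ x ∈ m.reg, u x = ∑ i, l (.inr i) * β i (m.F x)) → (∀ i, l (.inr i) = 0) →
      l = 0 ∧ ∀ x ∈ m.reg, u x = 0 := fun u l a b c =>
    ⟨funext fun k => by rcases k with k | k; exacts [a k, c k], fun x hx => by simp [b x hx, c]⟩
  refine ⟨Sum.elim e fun i => src w (eta s) (ζ i), by linarith, ?_, ?_, fun u l hu u2 h0 hg => ?_,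
    fun u l hu u2 h0 => ?_⟩
  · rintro (i | i)
    exacts [(e1 i).1.of_le one_le_inf, f1 i]
  · rintro (i | i) z hz
    exacts [hR i z (by linarith), f2 i z hz]
  · obtain ⟨a, b⟩ := key u l hu u2 h0
    refine fin u l a b fun i => abs_eq_zero.1 (le_antisymm (le_of_forall_pos_le_add fun ε hε => ?_)
      (abs_nonneg _))
    obtain ⟨p, hp, h1⟩ := hg i (ε * c) (by positivity) (s + 2)
    have h2 : m.w0 < p.1 := by linarith
    rw [b _ (Y_reg m _ h2), Finset.sum_eq_single i (fun j _ hj => by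
      simp [hβ, (z4 j _ p h2 fun a => hj (Sum.inl_injective a).symm).self_of_nhds]) (by simp)] at h1
    simp only [hβ] at h1
    rw [eta_zero (by rw [norm_F_Y m _ h2]; linarith), sub_zero, one_mul, z5 i p (by linarith),
      abs_mul, mul_assoc] at h1
    rw [zero_add]
    exact le_of_mul_le_mul_right ((mul_le_mul_of_nonneg_left (hy i p (by linarith)).2.2.1
      (abs_nonneg _)).trans h1) (mul_pos hc (by linarith))
  · obtain ⟨a, b⟩ := key u l hu u2 fun i => h0 (.inl i)
    refine fin u l a b fun i => ?_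
    have h1 : ∫ z, l (.inr i) * (β i z * src w (eta s) (ζ i) z) ∂(ga 2 w) = 0 := by
      rw [integral_ga_eq m, mul_eq_zero_iff_left (cH_pos' 2).ne', ← h0 (.inr i)]
      refine integral_congr_ae (m.ae_reg.mono fun x hx => ?_)
      simp only [pull_reg m _ hx, b x hx, Sum.elim_inr, Finset.mul_sum]
      rw [Finset.sum_eq_single i (fun j _ hj => ?_) (by simp)]
      · ring
      rcases le_total (‖m.F x‖ ^ 2) (4 * s + 6) with a | a
      · simp [b0 j _ a]
      obtain ⟨j', p, hp, rfl⟩ := exists_Y m hx (by linarith)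
      rcases eq_or_ne j' (.inl j) with rfl | hj'
      · have h2 := z4 i _ p hp fun a => hj (Sum.inl_injective a)
        simp [src, h2.self_of_nhds, tv_eq_zero (w2.of_le (by norm_num)) (m.w_F hx) (m.norm_nu hx)
          ((z1 i).differentiable two_ne_zero _) (ev_amb m hx h2)]
      · simp [hβ, (z4 j j' p hp hj').self_of_nhds]
    rw [integral_const_mul, integral_src h η2 ηc (z1 i), mul_eq_zero, neg_eq_zero] at h1
    refine h1.resolve_right fun h2 => ?_
    have g1 : Continuous fun z => ζ i z ^ 2 * ‖tv w (eta s) z‖ ^ 2 := ((z1 i).continuous.pow 2).mul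
      ((continuous_tv (w2.of_le (by norm_num)) (η2.of_le (by norm_num))).norm.pow 2)
    have g2 : HasCompactSupport fun z => ζ i z ^ 2 * ‖tv w (eta s) z‖ ^ 2 :=
      HasCompactSupport.intro (tv_compact (w := w) ηc) fun x hx => by
        simp [image_eq_zero_of_notMem_tsupport hx]
    rw [integral_eq_zero_iff_of_nonneg (fun z => by positivity) (h.integrable_cc g1 g2)] at h2
    obtain ⟨t, ht, h3⟩ := exists_tv_ne m s1 (.inl i)
    have h4 := eq_zero_of_ae m (g1.comp_continuousOn m.rimm.cont)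
      (ae_mu0 m (g1.memLp_of_hasCompactSupport g2) h2) (Y_reg m (.inl i) (p := (t, 0)) (by linarith))
    have h5 := (hy i (t, 0) (by linarith)).2.2.1
    simp only [Function.comp, mul_eq_zero, pow_eq_zero_iff two_ne_zero, norm_eq_zero, h3, or_false,
      z5 i (t, 0) ht.le] at h4
    rw [h4, abs_zero] at h5
    exact absurd h5 (not_le.2 (mul_pos hc (by linarith)))

end Vale.Agent.P218KE
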