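import Vale.Agent.P218KE.Link
import Vale.Agent.P218XI.Col4
import Vale.Agent.P218CH.EndX

/-! The multipliers from the canonical expansion. -/

open Set Filter Topology MeasureTheory

namespace Vale.Agent.P218KE

open Vale.Agent.P218VA Vale.Agent.P218CO Vale.Agent.P218XI Vale.Agent.P218CH Vale.Agent.P218EN
  Vale.Agent.P272.K.LIN
open Vale.Agent.P218GA (E3 Model ev_gt)

/-- the existence of the canonical expansion -/
def CanStmt : Prop := ∀ (a s r R K : ℝ) (RV : Set ℂ) (Cf : ℂ × (Fin 6 → WA) → WA)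
  (JS : Fin 6 → WA) (J : ℝ → ℂ × ℂ → Fin 6 → WA), EndIn a s r R K RV Cf JS →
  EndFam a s r R K RV Cf JS J → 10 ^ 34 ≤ a → ∃ L0 Y, Can a s r K L0 RV Cf JS J Y

variable {S : Set E3} {w : E3 → ℝ} {δ C : ℝ} {ι κ M : Type} [TopologicalSpace M]
  [ChartedSpace E2 M] (m : Model S w δ C ι κ M) [Finite κ] [T2Space M] [RSm E2 M] [CompactSpace M]
  [MeasurableSpace M] [BorelSpace M] [Fintype ι]

theorem exists_mult_can (hc : CanStmt) :
    ∃ (n : ℕ) (s : ℝ) (e : Fin n ⊕ ι → E3 → ℝ), Mult m s e := by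
  refine exists_mult_of m fun i => ?_
  obtain ⟨JS, hJ⟩ := exists_sJet m i (lt_add_one m.w0)
  obtain ⟨R, hR, h1⟩ := exists_endIn
  obtain ⟨a1, h1⟩ := h1 R hR le_rfl
  obtain ⟨a2, h2, h3⟩ := hJ.sEnd hR
  obtain ⟨a, b1, b2, b3⟩ : ∃ a : ℝ, a1 ≤ a ∧ a2 ≤ a ∧ 10 ^ 34 ≤ a :=
    ⟨max a1 (max a2 (10 ^ 34)), le_max_left _ _, le_max_of_le_right (le_max_left _ _),
      le_max_of_le_right (le_max_right _ _)⟩
  obtain ⟨r, hr, h4⟩ := h1 a b1 (0 : ℂ →L[ℂ] T3 WA) JS (h3 a b2)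
  have I := h4 r a ∅ hr le_rfl le_rfl (by simp)
  obtain ⟨J, F⟩ := I.exists_endFam
  obtain ⟨L0, Y, h⟩ := hc _ _ _ _ _ _ _ _ _ I F b3
  have h5 := hJ.ys_linEnd (h2.trans b2) h hr
  refine ⟨ys L0 Y, h5.per, ?_⟩
  filter_upwards [ev_gt (a + 4), ev_gt L0] with p c1 c2
  refine ⟨h5.cd p (by linarith), ?_, ys_grow h hr c2.le⟩
  simpa only [Pi.zero_apply, smul_zero, EndOp.END_zero _ c1.le] using h5.eq p (by linarith)

end Vale.Agent.P218KE
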